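import Vale.Agent.P093.N.Nak2
import Vale.Agent.P093.N.PLocRight
import Vale.Agent.P093.N.VL
import Vale.Agent.P251.M.GPush
import Vale.Agent.P251.M.MUBasisV
import Vale.Agent.P251.I.M2

/-!
# P093, part N1 (S-a): bases of `R' ⊗ R'`, `R' = R ⊗ S_(p)`

* `RBasis.ofGBasis` : a graded basis of `A ⊗ R` over the first factor is an `A`-basis of `R`
* `RBasis.pushB` : change of rings
* `RBasis.ofWhisker` : transport along `g : X ⟶ Y` such that `R ◁ g` is an isomorphism
* `RpMU` : the ring `R' = R ⊗ S_(p)`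
* `exists_rbasis_MU`, `exists_rbasis_Rp` : the bases `b^a` of `R ⊗ R` and `R' ⊗ R'`
* `FinType` of bases
-/

open CategoryTheory MonoidalCategory MonObj Limits Pretriangulated

set_option linter.unusedSectionVars false

universe v u

noncomputable section

namespace Vale.Agent.P093.N1

open Vale.Agent.P251.S Vale.Agent.P251.T Vale.Agent.P251.M Vale.Agent.P251.M.EvenSpheres
  Vale.Agent.P251.X Vale.Agent.P093.Nak Vale.Agent.P251.I Vale.Agent.P251.F
  Vale.Agent.P093.PLoc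

/-! ### Monomials of bounded degree -/

section deg

theorem degU_nonneg (a : ℕ →₀ ℕ) : 0 ≤ Cob.degU a := by
  unfold Cob.degU Finsupp.sum
  exact Finset.sum_nonneg fun i _ => by positivity

theorem le_degU (a : ℕ →₀ ℕ) (i : ℕ) : (a i : ℤ) * ((i + 1 : ℕ) : ℤ) ≤ Cob.degU a := by
  unfold Cob.degU Finsupp.sum
  by_cases hi : i ∈ a.support
  · exact Finset.single_le_sum (f := fun i => ((a i : ℕ) : ℤ) * ((i + 1 : ℕ) : ℤ))
      (fun i _ => by positivity) hi
  · rw [Finsupp.notMem_support_iff.1 hi, Nat.cast_zero, zero_mul]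
    exact Finset.sum_nonneg fun i _ => by positivity

theorem finite_degU_le (n : ℤ) : {a : ℕ →₀ ℕ | Cob.degU a ≤ n}.Finite := by
  classical
  refine (Set.finite_Iic (Finsupp.onFinset (Finset.range (n.toNat + 1))
    (fun i => if i < n.toNat + 1 then n.toNat else 0) (fun i hi => by
      simp only [ne_eq, ite_eq_right_iff, Classical.not_imp] at hi
      exact Finset.mem_range.2 hi.1))).subset fun a ha => ?_
  rw [Set.mem_Iic]
  intro i
  rw [Finsupp.onFinset_apply]
  have h1 := (le_degU a i).trans ha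
  by_cases h0 : a i = 0
  · rw [h0]; exact Nat.zero_le _
  have h2 : 1 ≤ a i := Nat.one_le_iff_ne_zero.2 h0
  have h3 : ((a i * (i + 1) : ℕ) : ℤ) ≤ n := by push_cast at h1 ⊢; exact h1
  have h4 : a i * (i + 1) ≤ n.toNat := by omega
  have h5 : i + 1 ≤ a i * (i + 1) := Nat.le_mul_of_pos_left _ h2
  have h6 : a i ≤ a i * (i + 1) := Nat.le_mul_of_pos_right _ (Nat.succ_pos i)
  rw [if_pos (by omega)]
  omega

theorem finite_degU (n : ℤ) : {a : ℕ →₀ ℕ | Cob.degU a = n}.Finite :=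
  (finite_degU_le n).subset fun _ h => le_of_eq h

@[simp] theorem degU_zero : Cob.degU (0 : ℕ →₀ ℕ) = 0 := by
  unfold Cob.degU
  rw [Finsupp.sum_zero_index]

end deg

variable {T : Type u} [Category.{v} T] [Preadditive T] [HasZeroObject T]
    [HasShift T ℤ] [∀ n : ℤ, (shiftFunctor T n).Additive] [Pretriangulated T] [IsTriangulated T]
    [MonoidalCategory T] [SymmetricCategory T] [TensorTriangulated T] [MonoidalClosed T]
    [HasCoproducts.{0} T] [HasProducts.{0} T] [StableCat T] {E : EvenSpheres T}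

lemma bind_eq_lin {R F Y : T} [MonObj R] (w : F ⟶ R ⊗ Y) :
    FM.bind w = lin (ModStr.free R Y) w := rfl

/-- A graded basis of `A ⊗ R` over the first factor is an `A`-basis of `R`. -/
def ofGBasis {A R : T} [MonObj A] [MonObj R] {J : Type} (b : GBasis E (inlM A R) J) :
    RBasis E A R J where
  k := b.k
  w := b.w
  isIso := b.isIso_bind

/-- Change of rings. -/
def pushB {R R' X : T} [MonObj R] [MonObj R'] (φ : R ⟶ R') [IsMonHom φ] {J : Type}
    (b : RBasis E R X J) : RBasis E R' X J where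
  k := b.k
  w j := b.w j ≫ φ ▷ X
  isIso := isIso_desc_bind_push φ b.w b.isIso

/-- Transport along a map which becomes an isomorphism after `R ⊗ -`. -/
def ofWhisker {R X Y : T} [MonObj R] (g : X ⟶ Y) (hg : IsIso (R ◁ g)) {J : Type}
    (b : RBasis E R X J) : RBasis E R Y J where
  k := b.k
  w j := b.w j ≫ R ◁ g
  isIso := by
    have h1 : (Sigma.desc fun j => lin (ModStr.free R Y) (b.w j ≫ R ◁ g)) =
        (Sigma.desc fun j => lin (ModStr.free R X) (b.w j)) ≫ R ◁ g := by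
      refine Sigma.hom_ext _ _ fun j => ?_
      rw [Sigma.ι_desc, Sigma.ι_desc_assoc, lin_comp _ (ModStr.free R Y) _ _
        (Nak.isLinear_whiskerLeft g)]
    have := b.isIso
    rw [h1]
    infer_instance

/-! ### Finite type -/

section FinType

variable {R R' X Y : T} [MonObj R] [MonObj R'] {J K : Type}

theorem finType_pushB (φ : R ⟶ R') [IsMonHom φ] {b : RBasis E R X J} (h : b.FinType) :
    (pushB φ b).FinType := h

theorem finType_ofWhisker (g : X ⟶ Y) (hg : IsIso (R ◁ g)) {b : RBasis E R X J}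
    (h : b.FinType) : (ofWhisker g hg b).FinType := h

/-- degree functions of finite type -/
def FT (k : J → ℤ) : Prop := (∃ B : ℤ, ∀ j, B ≤ k j) ∧ ∀ n : ℤ, {j | k j = n}.Finite

theorem finType_iff (b : RBasis E R X J) : b.FinType ↔ FT b.k := Iff.rfl

theorem FT.finite_le {k : J → ℤ} (h : FT k) (n : ℤ) : {j | k j ≤ n}.Finite := by
  obtain ⟨⟨B, hB⟩, hf⟩ := h
  have h1 : {j | k j ≤ n} ⊆ ⋃ m ∈ Finset.Icc B n, {j | k j = m} := by
    intro j hj
    simp only [Set.mem_iUnion]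
    exact ⟨k j, Finset.mem_Icc.2 ⟨hB j, hj⟩, rfl⟩
  exact (Set.Finite.biUnion (Finset.finite_toSet _) fun m _ => hf m).subset h1

/-- products -/
theorem FT.prod {k : J → ℤ} {l : K → ℤ} (hk : FT k) (hl : FT l) :
    FT fun jl : J × K => k jl.1 + l jl.2 := by
  obtain ⟨B, hB⟩ := hk.1
  obtain ⟨C, hC⟩ := hl.1
  refine ⟨⟨B + C, fun jl => add_le_add (hB _) (hC _)⟩, fun n => ?_⟩
  refine ((hk.finite_le (n - C)).prod (hl.finite_le (n - B))).subset ?_
  rintro ⟨j, l'⟩ h
  change k j + l l' = n at h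
  exact ⟨by change k j ≤ n - C; linarith [hC l'], by change l l' ≤ n - B; linarith [hB j]⟩

/-- sums -/
theorem FT.sum {k : J → ℤ} {l : K → ℤ} (hk : FT k) (hl : FT l) :
    FT (Sum.elim k l) := by
  obtain ⟨B, hB⟩ := hk.1
  obtain ⟨C, hC⟩ := hl.1
  refine ⟨⟨min B C, ?_⟩, fun n => ?_⟩
  · rintro (j | j)
    · exact (min_le_left _ _).trans (hB j)
    · exact (min_le_right _ _).trans (hC j)
  · have h1 : {j | Sum.elim k l j = n} ⊆ Sum.inl '' {j | k j = n} ∪ Sum.inr '' {j | l j = n} := by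
      rintro (j | j) hj
      · exact Or.inl ⟨j, hj, rfl⟩
      · exact Or.inr ⟨j, hj, rfl⟩
    exact (((hk.2 n).image _).union ((hl.2 n).image _)).subset h1

/-- subfamilies -/
theorem FT.comp {k : J → ℤ} (hk : FT k) {f : K → J} (hf : Function.Injective f) :
    FT (k ∘ f) := by
  refine ⟨⟨hk.1.choose, fun j => hk.1.choose_spec (f j)⟩, fun n => ?_⟩
  exact (hk.2 n).preimage hf.injOn

/-- shifts of the degrees -/
theorem FT.add_const {k : J → ℤ} (hk : FT k) (d : ℤ) : FT fun j => k j + d := by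
  refine ⟨⟨hk.1.choose + d, fun j => by linarith [hk.1.choose_spec j]⟩, fun n => ?_⟩
  refine (hk.2 (n - d)).subset fun j hj => ?_
  change k j + d = n at hj
  change k j = n - d
  linarith

theorem FT.of_finite [Finite J] (k : J → ℤ) : FT k := by
  refine ⟨?_, fun n => Set.toFinite _⟩
  obtain ⟨B, hB⟩ := (Set.finite_range k).bddBelow
  exact ⟨B, fun j => hB ⟨j, rfl⟩⟩

theorem FT_degU : FT Cob.degU := ⟨⟨0, degU_nonneg⟩, finite_degU⟩

end FinType

/-! ### `p`-local objects -/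

section plocal

variable {p : ℕ}

theorem etaR_assoc (A X : T) : etaR p (A ⊗ X) ≫ (α_ A X (Sp T p)).hom = A ◁ etaR p X := by
  unfold etaR
  rw [whiskerLeft_comp, Category.assoc, rightUnitor_tensor_inv, Category.assoc,
    associator_naturality_right, Iso.inv_hom_id_assoc]

/-- localization of `X` is invisible to a `p`-local `A` -/
theorem isIso_whiskerLeft_etaR (hp : p ≠ 1) {A : T} (hA : IsPLocal p A) (X : T) :
    IsIso (A ◁ etaR p X) := by
  rw [← etaR_assoc]
  have := (isPLocal_iff_isIso_etaR hp).1 (hA.tensor_right X)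
  infer_instance

end plocal

/-! ### Injectivity -/

/-- `(R ⊗ S) ⊗ Q` is `R`-injective. -/
theorem inj_tensor_tensor (U : Vale.Agent.P093.N.TT.UTri T) (S Q : T) : U.Inj ((U.E ⊗ S) ⊗ Q) :=
  (Vale.Agent.P093.N.TT.UTri.inj_E_tensor S).tensor Q

/-! ### `MU` -/

section MU

variable {F : SpaceFunctor T} {e : F.S.obj CCF ≅ (stdEven T).L} {D : MUData T}

/-- The basis `b^a` of `R ⊗ R`, `R = MU`. -/
theorem exists_rbasis_MU (H : MUUniv e D) :
    ∃ b : RBasis (stdEven T) D.R D.R (ℕ →₀ ℕ), (∀ a, b.k a = Cob.degU a) ∧ b.FinType ∧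
      ∀ a, HRing.of (stdEven T) (D.R ⊗ D.R) (b.k a) (b.w a) =
        HRing.map (amOne D.R ▷ D.R) (D.ev 1 (MvPolynomial.monomial (Cob.last 0 a) 1)) := by
  obtain ⟨b, hk, hw⟩ := H.basis
  refine ⟨pushB (amOne D.R) (ofGBasis b), hk, ?_, fun a => ?_⟩
  · rw [finType_iff]
    have h1 : (pushB (amOne D.R) (ofGBasis b)).k = Cob.degU := funext hk
    rw [h1]
    exact FT_degU
  · rw [← hw a]
    exact (HRing.map_of (amOne D.R ▷ D.R) (b.k a) (b.w a)).symm

/-- the ring `MU ⊗ S_(p)` -/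
abbrev Rp (D : MUData T) (p : ℕ) : T := D.R ⊗ Sp T p

variable (p : ℕ) [hp : Fact p.Prime]

/-- the ring map `R ⟶ R'` -/
abbrev toRp (D : MUData T) (p : ℕ) [Fact p.Prime] : D.R ⟶ Rp D p := inlM D.R (Sp T p)

theorem toRp_eq : toRp D p = etaR p D.R := rfl

theorem isPLocal_Rp : IsPLocal p (Rp D p) := isPLocal_tensor_Sp hp.out.ne_one D.R

/-- The basis `b^a` of `R' ⊗ R'`, `R' = MU_(p)`. -/
theorem exists_rbasis_Rp (H : MUUniv e D) :
    ∃ b : RBasis (stdEven T) (Rp D p) (Rp D p) (ℕ →₀ ℕ), (∀ a, b.k a = Cob.degU a) ∧ b.FinType ∧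
      ∀ a, HRing.of (stdEven T) (Rp D p ⊗ Rp D p) (b.k a) (b.w a) =
        HRing.map ((amOne D.R ≫ toRp D p) ⊗ₘ toRp D p)
          (D.ev 1 (MvPolynomial.monomial (Cob.last 0 a) 1)) := by
  obtain ⟨b, hk, hf, hw⟩ := exists_rbasis_MU H
  have hI : IsIso (Rp D p ◁ toRp D p) :=
    isIso_whiskerLeft_etaR hp.out.ne_one (isPLocal_Rp p) D.R
  refine ⟨ofWhisker (toRp D p) hI (pushB (toRp D p) b), hk, hf, fun a => ?_⟩
  have h1 : (amOne D.R ≫ toRp D p) ⊗ₘ toRp D p =
      (amOne D.R ▷ D.R) ≫ (toRp D p ⊗ₘ toRp D p) := by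
    rw [← tensorHom_id, tensorHom_comp_tensorHom, Category.id_comp]
  rw [HRing_map_congr h1, HRing.map_comp, RingHom.comp_apply, ← hw a]
  refine Eq.trans ?_ (HRing.map_of (toRp D p ⊗ₘ toRp D p) (b.k a) (b.w a)).symm
  change HRing.of (stdEven T) (Rp D p ⊗ Rp D p) (b.k a)
    ((b.w a ≫ toRp D p ▷ D.R) ≫ Rp D p ◁ toRp D p) = _
  rw [MonoidalCategory.tensorHom_def, Category.assoc]

end MU

end Vale.Agent.P093.N1
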