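import Vale.Agent.P093.N.Nak3
import Vale.Agent.P093.N1.EBase
import Vale.Agent.P251.M.QFinal

/-!
# P093, part N1: `π_0` of `R ⊗ S_(p)` is local

* `piConn_mu` : `PiConn D.R` for `D : MUData T`;
* `localPt_of_lift`, `localPt_Rp` : `LocalPt c` for every point `c` over `R ⊗ S_(p)`.
-/

open CategoryTheory MonoidalCategory MonObj Limits Pretriangulated

set_option linter.unusedSectionVars false

universe v u

noncomputable section

namespace Vale.Agent.P093.N1

open Vale.Agent.P251.S Vale.Agent.P251.T Vale.Agent.P251.M Vale.Agent.P251.M.EvenSpheres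
  Vale.Agent.P251.X Vale.Agent.P093.Nak Vale.Agent.P251.I Vale.Agent.P251.F
  Vale.Agent.P093.PLoc

variable {T : Type u} [Category.{v} T] [Preadditive T] [HasZeroObject T]
    [HasShift T ℤ] [∀ n : ℤ, (shiftFunctor T n).Additive] [Pretriangulated T] [IsTriangulated T]
    [MonoidalCategory T] [SymmetricCategory T] [TensorTriangulated T] [MonoidalClosed T]
    [HasCoproducts.{0} T] [HasProducts.{0} T] [StableCat T]

/-- The lowest homotopy groups of `MU`. -/
theorem piConn_mu (F : SpaceFunctor T) (D : MUData T) : PiConn D.R := by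
  obtain ⟨J, a, b, hD⟩ := distinguished_cocone_triangle (η[D.R] : 𝟙_ T ⟶ D.R)
  refine PiConn.of_dist F (J := J) (a := a) (b := b) hD ?_
  exact (D.conn J a b hD).conn (unit_conn F) (fun Y k f => StableCat.compact k Y f)

theorem isUnit_of_mul_eq {A : Type*} [CommRing A] {a b : A} (h : a * b = 1) : IsUnit a :=
  IsUnit.of_mul_eq_one b h

section

variable {R B : T} [MonObj R] [MonObj B] [IsCommMonObj B] (φ : R ⟶ B) [IsMonHom φ] {p : ℕ}
  [hp : Fact p.Prime]

theorem coprime_of_ne_zero {m : ℤ} (h : (m : ZMod p) ≠ 0) : m.natAbs.Coprime p := by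
  rw [Nat.coprime_comm, Nat.Prime.coprime_iff_not_dvd hp.out]
  intro h1
  apply h
  rw [ZMod.intCast_zmod_eq_zero_iff_dvd]
  exact Int.natCast_dvd.2 h1

theorem localPt_of_lift (hπ : PiConn R) (hB : IsPLocal p B)
    (hlift : ∀ (n : ℤ) (f : (stdEven T).S n ⟶ B), ∃ (q : ℕ) (g : (stdEven T).S n ⟶ R),
      q.Coprime p ∧ g ≫ φ = (q : ℤ) • f) (c : Pt (stdEven T) B p 0) : LocalPt c where
  neg n hn a := by
    obtain ⟨q, g, hq, hg⟩ := hlift n a
    rw [hπ.neg n hn g, zero_comp] at hg
    exact hB.eq_zero (q := (q : ℤ)) (by simpa using hq) hg.symm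
  isUnit a ha := by
    obtain ⟨q, g, hq, hg⟩ := hlift 0 a
    obtain ⟨m, hm⟩ := hπ.zero ((stdEven T).zero.hom ≫ g)
    have h1 : g = m • ((stdEven T).zero.inv ≫ η[R]) := by
      rw [← Preadditive.comp_zsmul, ← hm, Iso.inv_hom_id_assoc]
    have h2 : (q : ℤ) • a = m • ((stdEven T).zero.inv ≫ η[B]) := by
      rw [← hg, h1, Preadditive.zsmul_comp, Category.assoc, IsMonHom.one_hom]
    have h3 : ((q : ℤ) : HRing (stdEven T) B) * HRing.of (stdEven T) B 0 a =
        ((m : ℤ) : HRing (stdEven T) B) := by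
      have h4 := congrArg (DirectSum.of ((stdEven T).Gr B) 0) h2
      have h5 : ∀ (k : ℤ) (x : (stdEven T).S 0 ⟶ B), DirectSum.of ((stdEven T).Gr B) 0 (k • x) =
          (k : HRing (stdEven T) B) * HRing.of (stdEven T) B 0 x := fun k x => by
        rw [← zsmul_eq_mul]
        exact map_zsmul (DirectSum.of ((stdEven T).Gr B) 0) k x
      rw [← h5, h4, h5, of_one, _root_.mul_one]
    have h6 : (m : ZMod p) ≠ 0 := by
      intro h0
      have h7 := congrArg c.χ h3
      rw [map_mul, map_intCast, map_intCast, h0] at h7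
      rcases mul_eq_zero.1 h7 with h8 | h8
      · have h9 : ((q : ℤ) : ZMod p) = 0 := h8
        rw [Int.cast_natCast, ZMod.natCast_eq_zero_iff] at h9
        exact (Nat.Prime.coprime_iff_not_dvd hp.out).1 hq.symm h9
      · exact ha h8
    obtain ⟨u, hu⟩ := hB.exists_div (coprime_of_ne_zero h6) ((stdEven T).zero.inv ≫ η[B])
    have h10 : ((m : ℤ) : HRing (stdEven T) B) * HRing.of (stdEven T) B 0 u = 1 := by
      have h4 := congrArg (DirectSum.of ((stdEven T).Gr B) 0) hu
      rw [← zsmul_eq_mul]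
      refine (map_zsmul (DirectSum.of ((stdEven T).Gr B) 0) m u).symm.trans ?_
      exact h4
    refine isUnit_of_mul_eq (b := ((q : ℤ) : HRing (stdEven T) B) *
      HRing.of (stdEven T) B 0 u) ?_
    rw [← h10, ← h3]
    ring

end

/-- **`π_{2*}(MU ⊗ S_(p))` is a connected graded ring with local `π_0`.** -/
theorem localPt_Rp (F : SpaceFunctor T) (D : MUData T) {p : ℕ} [hp : Fact p.Prime]
    (c : Pt (stdEven T) (Rp D p) p 0) : LocalPt c :=
  localPt_of_lift (toRp D p) (piConn_mu F D) (isPLocal_Rp p) (fun n f =>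
    exists_lift_right ((PLoc.isCpt_sph (2 * n)).of_iso (stdSph n).symm) f) c

end Vale.Agent.P093.N1
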