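import Vale.Agent.P093.N1.PnHomog
import Vale.Agent.P093.EN.Package

/-!
# P093, part N1: the step of the tower, without hypotheses

* `packPn` : `Pack` for `Pn p m`
* `hstep` : the step of the tower
* `towerIn` : Step 1.
-/

open CategoryTheory MonoidalCategory MonObj Limits Pretriangulated TensorProduct

set_option linter.unusedSectionVars false

universe v u w

noncomputable section

namespace Vale.Agent.P093.N1

open Vale.Agent.P251.S Vale.Agent.P251.T Vale.Agent.P251.M Vale.Agent.P251.M.EvenSpheres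
  Vale.Agent.P251.X Vale.Agent.P093.Nak Vale.Agent.P093.N.HH Vale.Agent.P251.F
  Vale.Agent.P251.I Vale.Agent.P093.N.PhiT Vale.Agent.P093.N.Phi Vale.Agent.P093.PLoc
  Vale.Agent.P093.N Vale.Agent.P093.N.Fin Vale.Agent.P093.N.TT Vale.Agent.P093.N.LR

/-- **`Pack` for `Pn p m`.** -/
theorem packPn (p : ℕ) [Fact p.Prime] (m : ℕ) (Pg : ℤ → Submodule (ZMod p) (Pn p m))
    (hPg : ∀ n, ∀ a ∈ Pg n, a = 0 ∨ ∃ i : ℕ, (i : ℤ) = n ∧ a ∈ Pn.gr p m i) :
    Pack.{v} p Pg (psiM p m) ((p - 1) * p ^ m) := by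
  intro H _ _ Hr B ρ hint hfin hB hρ hgr hinj
  obtain ⟨J, d, π, h1, h2, h3, h4⟩ := EN.package_Pn p m Pg hPg Hr hint hfin B hB ρ hρ hgr hinj
  refine ⟨J, d, π, h1, h2, h3, ?_⟩
  intro f₀ hf hg hc
  obtain ⟨k1, k2, k3⟩ := h4 f₀ hg hf (fun x v => hc x v)
  refine ⟨k1, fun n hn x hx => ?_, fun Q _ _ ρQ g _ hg' hs hk => k3 ρQ g hg' hs hk⟩
  obtain ⟨y, -, hy⟩ := k2 n hn x hx
  exact ⟨y, hy⟩

variable {T : Type u} [Category.{v} T] [Preadditive T] [HasZeroObject T]
    [HasShift T ℤ] [∀ n : ℤ, (shiftFunctor T n).Additive] [Pretriangulated T] [IsTriangulated T]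
    [MonoidalCategory T] [SymmetricCategory T] [TensorTriangulated T] [MonoidalClosed T]
    [HasCoproducts.{0} T] [HasProducts.{0} T] [StableCat T]

variable {F : SpaceFunctor T} {e : F.S.obj CCF ≅ (stdEven T).L} {D : MUData T} (H : MUUniv e D)
  {p : ℕ} [hpf : Fact p.Prime] (h : IsMULoc D (toRp D p) p)

include F H in
/-- **The step of the tower.** -/
theorem hstep (m : ℕ) (B : ℤ) (X : T) (hX : TowObj h m B X) :
    HasStep (UTri.ofMon D.R) (TowObj h m (B + (((p - 1) * p ^ m : ℕ) : ℤ))) X :=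
  hstep_MU H h m (homog_Pn h m) (packPn p m (PnZ p m) (PnZ_cases p m)) B X hX

include F H in
/-- **Step 1.** -/
theorem towerIn : TowerIn h := towerIn_of fun m B X hX => hstep H h m B X hX

end Vale.Agent.P093.N1
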