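import Vale.Agent.P093.N.VL
import Vale.Agent.P251.S.TensorShift

/-!
# P093, part N, Step 1: vanishing lines from a resolution step

`U : UTri T` (`I ⟶ 𝟙 ⟶ E`), `G B X` a class of objects (good objects with bottom `≥ B`).

* `HasStep U P X` : there are a retraction `X ⟶ Y ⟶ X` and a distinguished triangle
  `Y ⟶ E₀ ⟶ C ⟶ Y⟦1⟧` with `C ⟶ Y⟦1⟧` null, `E₀` injective and `P C`.
* `exists_tower` : if every `X` in `G B` has a step with cofibre in `G (B + d)`, then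
  `I ⊗ Q s X ⟶ Q s X` factors through an object `F` with `F⟦s + 1⟧` in `G (B + d (s + 1))`.
* `null_eq_zero`, `vl_of_step` : the vanishing line of slope `d - 1`, with explicit constants.
-/

open CategoryTheory MonoidalCategory Limits Pretriangulated

set_option linter.unusedSectionVars false

universe v u

namespace Vale.Agent.P093.N1

open Vale.Agent.P251.T Vale.Agent.P251.S Vale.Agent.P093.N.TT Vale.Agent.P093.N.TT.UTri

variable {T : Type u} [Category.{v} T] [Preadditive T] [HasZeroObject T]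
    [HasShift T ℤ] [∀ n : ℤ, (shiftFunctor T n).Additive] [Pretriangulated T]
    [MonoidalCategory T] [SymmetricCategory T] [TensorTriangulated T]

/-- `f⟦n⟧` in terms of the tensor product with a sphere -/
lemma shift_eq (n : ℤ) {X Y : T} (f : X ⟶ Y) : f⟦n⟧' =
    (tensorSph n X).inv ≫ f ▷ ((𝟙_ T)⟦n⟧) ≫ (tensorSph n Y).hom := by
  rw [tensorSph_naturality, Iso.inv_hom_id_assoc]

variable {U : UTri T}

lemma null_shift {X Y : T} {f : X ⟶ Y} (h : U.Null f) (n : ℤ) : U.Null (f⟦n⟧') := by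
  rw [shift_eq]
  exact ((h.whiskerRight _).comp_right _).comp_left _

lemma inj_shift {M : T} (h : U.Inj M) (n : ℤ) : U.Inj (M⟦n⟧) :=
  (h.tensor _).of_iso (tensorSph n M)

lemma null_neg {X Y : T} {f : X ⟶ Y} (h : U.Null f) : U.Null (-f) := by
  unfold UTri.Null at *
  rw [Preadditive.neg_comp, h, neg_zero]

lemma null_zsmul {X Y : T} {f : X ⟶ Y} (h : U.Null f) (n : ℤ) : U.Null (n • f) := by
  unfold UTri.Null at *
  rw [Preadditive.zsmul_comp, h, smul_zero]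

lemma null_units_smul {X Y : T} {f : X ⟶ Y} (h : U.Null f) (n : ℤˣ) : U.Null (n • f) := by
  rw [Units.smul_def]
  exact null_zsmul h _

variable (U) in
/-- one step of a resolution of `X` -/
def HasStep (P : T → Prop) (X : T) : Prop :=
  ∃ (Y E₀ C : T) (ι : X ⟶ Y) (ρ : Y ⟶ X) (f : Y ⟶ E₀) (g : E₀ ⟶ C) (h : C ⟶ Y⟦(1 : ℤ)⟧),
    ι ≫ ρ = 𝟙 X ∧ Triangle.mk f g h ∈ distTriang T ∧ U.Null h ∧ U.Inj E₀ ∧ P C

/-- the desuspended step -/
lemma HasStep.desuspend {P : T → Prop} {F : T} {s : ℤ} (hs : HasStep U P (F⟦s⟧)) :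
    ∃ (Y F' M : T) (ι : F ⟶ Y) (ρ : Y ⟶ F) (t : F' ⟶ Y) (q : Y ⟶ M) (d : M ⟶ F'⟦(1 : ℤ)⟧),
      ι ≫ ρ = 𝟙 F ∧ Triangle.mk t q d ∈ distTriang T ∧ U.Null t ∧ U.Inj M ∧
      ∃ C : T, P C ∧ Nonempty (F'⟦s + 1⟧ ≅ C) := by
  obtain ⟨Y, E₀, C, ι, ρ, f, g, h, hιρ, hΔ, hN, hI, hP⟩ := hs
  let e : F⟦s⟧⟦-s⟧ ≅ F := (shiftFunctorCompIsoId T s (-s) (by simp)).app F
  let Δ' := ((Triangle.shiftFunctor T (-s)).obj (Triangle.mk f g h)).invRotate
  have hΔ' : Δ' ∈ distTriang T :=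
    inv_rot_of_distTriang _ (Triangle.shift_distinguished _ hΔ (-s))
  refine ⟨Y⟦-s⟧, Δ'.obj₁, E₀⟦-s⟧, e.inv ≫ ι⟦-s⟧', ρ⟦-s⟧' ≫ e.hom, Δ'.mor₁, Δ'.mor₂, Δ'.mor₃,
    ?_, hΔ', ?_, inj_shift hI _, C, hP, ⟨?_⟩⟩
  · rw [Category.assoc, ← Functor.map_comp_assoc, hιρ]
    simp
  · have h1 : U.Null (((Triangle.shiftFunctor T (-s)).obj (Triangle.mk f g h)).mor₃) := by
      change U.Null ((-s).negOnePow • h⟦-s⟧' ≫ (shiftFunctorComm T 1 (-s)).hom.app Y)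
      exact null_units_smul ((null_shift hN _).comp_right _) _
    change U.Null (-((((Triangle.shiftFunctor T (-s)).obj (Triangle.mk f g h)).mor₃)⟦(-1 : ℤ)⟧' ≫
      (shiftEquiv T (1 : ℤ)).unitIso.inv.app (Y⟦-s⟧)))
    exact null_neg ((null_shift h1 _).comp_right _)
  · change (C⟦-s⟧⟦(-1 : ℤ)⟧)⟦s + 1⟧ ≅ C
    exact (shiftFunctor T (s + 1)).mapIso ((shiftFunctorAdd' T (-s) (-1) (-(s + 1))
        (by ring)).app C).symm ≪≫ (shiftFunctorCompIsoId T (-(s + 1)) (s + 1) (by simp)).app C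

section Main

variable {G : ℤ → T → Prop} {d : ℤ}

/-- The resolution up to stage `s`. -/
theorem exists_stage (hiso : ∀ (B : ℤ) {X Y : T}, (X ≅ Y) → G B X → G B Y)
    (hstep : ∀ (B : ℤ) (X : T), G B X → HasStep U (G (B + d)) X) {B : ℤ} {X : T} (hX : G B X)
    (s : ℕ) : ∃ F : T, G (B + d * s) (F⟦(s : ℤ)⟧) ∧ ∃ (α : U.Q s X ⟶ F) (β : F ⟶ U.Q s X),
      U.ε (U.Q s X) ≫ (α ≫ β - 𝟙 _) = 0 := by
  induction s with
  | zero =>
    refine ⟨X, ?_, 𝟙 X, 𝟙 X, ?_⟩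
    · have h0 : B + d * ((0 : ℕ) : ℤ) = B := by simp
      rw [h0]
      exact hiso B ((shiftFunctorZero T ℤ).symm.app X) hX
    · change U.ε X ≫ (𝟙 X ≫ 𝟙 X - 𝟙 X) = 0
      rw [Category.comp_id, sub_self, comp_zero]
  | succ s ih =>
    obtain ⟨F, hF, α, β, hαβ⟩ := ih
    obtain ⟨Y, F', M, ι, ρ, t, q, δ, hιρ, hΔ, ht, hM, C, hC, ⟨e⟩⟩ := (hstep _ _ hF).desuspend
    have h1 : U.ε (U.Q s X) ≫ ((α ≫ ι) ≫ (ρ ≫ β) - 𝟙 _) = 0 := by
      rw [Category.assoc, reassoc_of% hιρ]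
      exact hαβ
    obtain ⟨α', β', h', -⟩ := tower_step hΔ ht hM (α ≫ ι) (ρ ≫ β) h1
    refine ⟨F', ?_, α', β', h'⟩
    have h2 : B + d * ((s + 1 : ℕ) : ℤ) = B + d * s + d := by push_cast; ring
    have h3 : ((s + 1 : ℕ) : ℤ) = (s : ℤ) + 1 := by push_cast; ring
    rw [h2, h3]
    exact hiso _ e.symm hC

/-- `I ⊗ Q s X ⟶ Q s X` factors through an object `F` with `F⟦s + 1⟧` in
`G (B + d (s + 1))`. -/
theorem exists_tower (hiso : ∀ (B : ℤ) {X Y : T}, (X ≅ Y) → G B X → G B Y)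
    (hstep : ∀ (B : ℤ) (X : T), G B X → HasStep U (G (B + d)) X) {B : ℤ} {X : T} (hX : G B X)
    (s : ℕ) : ∃ F : T, G (B + d * (s + 1)) (F⟦(s : ℤ) + 1⟧) ∧
      ∃ (a : U.I ⊗ U.Q s X ⟶ F) (b : F ⟶ U.Q s X), a ≫ b = U.ε (U.Q s X) := by
  obtain ⟨F, hF, α, β, hαβ⟩ := exists_stage (U := U) hiso hstep hX s
  obtain ⟨Y, F', M, ι, ρ, t, q, δ, hιρ, hΔ, ht, hM, C, hC, ⟨e⟩⟩ := (hstep _ _ hF).desuspend
  have h1 : U.ε (U.Q s X) ≫ ((α ≫ ι) ≫ (ρ ≫ β) - 𝟙 _) = 0 := by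
    rw [Category.assoc, reassoc_of% hιρ]
    exact hαβ
  obtain ⟨α', β', -, b, hb⟩ := tower_step hΔ ht hM (α ≫ ι) (ρ ≫ β) h1
  refine ⟨F', ?_, α', b, hb⟩
  have h2 : B + d * ((s : ℤ) + 1) = B + d * s + d := by ring
  rw [h2]
  exact hiso _ e.symm hC

/-- maps into `F` are zero if maps into `F⟦s⟧` from objects of dimension `+ s` are. -/
lemma eq_zero_of_shift {D : ℤ → T → Prop} (hD : ∀ n W, D n W → D (n + 1) (W⟦(1 : ℤ)⟧))
    (s : ℕ) : ∀ (n : ℤ) (F : T), (∀ W, D (n + s) W → ∀ f : W ⟶ F⟦(s : ℤ)⟧, f = 0) →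
      ∀ W, D n W → ∀ f : W ⟶ F, f = 0 := by
  induction s with
  | zero =>
    intro n F h W hW f
    have h1 := h W (by simpa using hW) (f ≫ (shiftFunctorZero T ℤ).inv.app F)
    have h2 : f ≫ (shiftFunctorZero T ℤ).inv.app F ≫ (shiftFunctorZero T ℤ).hom.app F = 0 := by
      rw [← Category.assoc]
      erw [h1]
      rw [zero_comp]
    rw [Iso.inv_hom_id_app] at h2
    exact (Category.comp_id f).symm.trans h2
  | succ s ih =>
    intro n F h W hW f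
    apply (shiftFunctor T (1 : ℤ)).map_injective
    rw [Functor.map_zero]
    refine ih (n + 1) (F⟦(1 : ℤ)⟧) (fun W' hW' g => ?_) _ (hD n W hW) _
    have e : (F⟦(1 : ℤ)⟧)⟦(s : ℤ)⟧ ≅ F⟦((s + 1 : ℕ) : ℤ)⟧ :=
      ((shiftFunctorAdd' T 1 (s : ℤ) ((s + 1 : ℕ) : ℤ) (by push_cast; ring)).app F).symm
    have h1 := h W' (by
      have h2 : n + ((s + 1 : ℕ) : ℤ) = n + 1 + s := by push_cast; ring
      rw [h2]; exact hW') (g ≫ e.hom)
    rw [← cancel_mono e.hom, h1, zero_comp]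

/-- **The vanishing line**, with explicit constants. -/
theorem null_eq_zero {D : ℤ → T → Prop} (hD : ∀ n W, D n W → D (n + 1) (W⟦(1 : ℤ)⟧))
    (hiso : ∀ (B : ℤ) {X Y : T}, (X ≅ Y) → G B X → G B Y)
    (hstep : ∀ (B : ℤ) (X : T), G B X → HasStep U (G (B + d)) X)
    (hhur : ∀ (B : ℤ) (X : T), G B X → ∀ n W, D n W → n < B → ∀ f : W ⟶ X, f = 0)
    {B : ℤ} {X : T} (hX : G B X) (s : ℕ) (n : ℤ) (W : T) (hW : D n W)
    (hn : n < B + (d - 1) * (s + 1)) (g : W ⟶ U.Q s X) (hg : U.Null g) : g = 0 := by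
  obtain ⟨g', rfl⟩ := hg.lift
  obtain ⟨F, hF, a, b, hab⟩ := exists_tower hiso hstep hX s
  have h1 : g' ≫ a = 0 := by
    refine eq_zero_of_shift hD (s + 1) n F (fun W' hW' f => ?_) W hW _
    have e : F⟦((s + 1 : ℕ) : ℤ)⟧ ≅ F⟦(s : ℤ) + 1⟧ := eqToIso (by push_cast; rfl)
    have h2 := hhur _ _ hF _ W' hW' (by push_cast; linarith) (f ≫ e.hom)
    rw [← cancel_mono e.hom, h2, zero_comp]
  rw [← hab, ← Category.assoc, h1, zero_comp]

/-- **Vanishing line from a resolution step.** -/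
theorem vl_of_step {D : ℤ → T → Prop} (hD : ∀ n W, D n W → D (n + 1) (W⟦(1 : ℤ)⟧))
    (hiso : ∀ (B : ℤ) {X Y : T}, (X ≅ Y) → G B X → G B Y)
    (hstep : ∀ (B : ℤ) (X : T), G B X → HasStep U (G (B + d)) X)
    (hhur : ∀ (B : ℤ) (X : T), G B X → ∀ n W, D n W → n < B → ∀ f : W ⟶ X, f = 0)
    {B : ℤ} {X : T} (hX : G B X) : U.VL D (d - 1) X := by
  refine ⟨1, -B - (d - 1), fun s n W hW hn g hg => ?_⟩
  exact null_eq_zero hD hiso hstep hhur hX s n W hW (by linarith) g (AF_one_iff.1 hg)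

end Main

end Vale.Agent.P093.N1
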