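import Vale.Agent.P093.N.FinalVl
import Vale.Agent.P093.N.HurMU
import Vale.Agent.P093.N1.Tower
import Vale.Agent.P251.M.QOut

/-!
# P093, part N, Step 1: from the resolution step to the vanishing line

* `TowObj.of_iso` : the class of Step 1 is closed under isomorphisms;
* `TowObj.hom_eq_zero` : the Hurewicz lemma for the class;
* `towerIn_of` : `TowerIn` from the resolution step.
-/

open CategoryTheory MonoidalCategory Limits Pretriangulated MonObj

set_option linter.unusedSectionVars false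

universe v u

namespace Vale.Agent.P093.N.Fin

open Vale.Agent.P251.T Vale.Agent.P251.S Vale.Agent.P251.M Vale.Agent.P251.I Vale.Agent.P251.X
open Vale.Agent.P093.N.TT Vale.Agent.P093.N.TT.UTri Vale.Agent.P093.N.LR
open Vale.Agent.P093.N1 Vale.Agent.P093.Nak Vale.Agent.P093.N.PhiT
open Vale.Agent.P093.PLoc (Sp eta etaR IsPLocal)

variable {T : Type u} [Category.{v} T] [Preadditive T] [HasZeroObject T]
    [HasShift T ℤ] [∀ n : ℤ, (shiftFunctor T n).Additive] [Pretriangulated T] [IsTriangulated T]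
    [MonoidalCategory T] [SymmetricCategory T] [TensorTriangulated T] [MonoidalClosed T]
    [HasCoproducts.{0} T] [HasProducts.{0} T] [StableCat T]

variable {D : MUData T} {p : ℕ} [hp : Fact p.Prime] {h : IsMULoc D (toRp D p) p}

/-- The class is closed under isomorphisms. -/
theorem TowObj.of_iso {m : ℕ} {B : ℤ} {X Y : T} (hX : TowObj h m B X) (e : X ≅ Y) :
    TowObj h m B Y where
  loc := hX.loc.of_iso e
  conn := by
    obtain ⟨B₀, h0⟩ := hX.conn
    exact ⟨B₀, Conn.of_iso e h0⟩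
  basis := by
    obtain ⟨J, b, hb, hk⟩ := hX.basis
    exact ⟨J, b.ofIso e, hb, hk⟩
  inj := by
    obtain ⟨J, b, -, -⟩ := hX.basis
    have gX : HH.Good (stdEven T) (Rp D p) X := ⟨J, ⟨b⟩⟩
    have gY : HH.Good (stdEven T) (Rp D p) Y := ⟨J, ⟨b.ofIso e⟩⟩
    refine hX.inj.retract (i := Vtot.map (coDatPn h m).c e.inv)
      (s := Vtot.map (coDatPn h m).c e.hom)
      ((coDatPn h m).psi_map Vale.Agent.P251.M.isSphere_std gY gX e.inv)
      ((coDatPn h m).psi_map Vale.Agent.P251.M.isSphere_std gX gY e.hom) ?_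
    rw [← Vtot.map_comp, e.inv_hom_id, Vtot.map_id]

/-- The Hurewicz lemma for the class. -/
theorem TowObj.hom_eq_zero {m : ℕ} {B : ℤ} {X : T} (hX : TowObj h m B X) {n : ℤ} {W : T}
    (hW : DimLE n W) (hn : n < 2 * B) (f : W ⟶ X) : f = 0 := by
  obtain ⟨B₀, h0⟩ := hX.conn
  obtain ⟨J, b, -, hk⟩ := hX.basis
  exact eq_zero_of_rbasis_Rp D hp.out.ne_one hX.loc h0 b hk hn hW f

/-- **Step 1 from the resolution step.** -/
theorem towerIn_of (hstep : ∀ (m : ℕ) (B : ℤ) (X : T), TowObj h m B X →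
    HasStep (UTri.ofMon D.R) (TowObj h m (B + (((p - 1) * p ^ m : ℕ) : ℤ))) X) : TowerIn h := by
  intro m B X hX s n W hW hn g hg
  have h1 : 1 ≤ (p - 1) * p ^ m := by
    have h2 := hp.out.two_le
    have h3 : 0 < p ^ m := pow_pos (by omega) m
    have h4 : 1 ≤ p - 1 := by omega
    exact Nat.mul_pos h4 h3
  have h1' : (1 : ℤ) ≤ (((p - 1) * p ^ m : ℕ) : ℤ) := by exact_mod_cast h1
  generalize hc : (((p - 1) * p ^ m : ℕ) : ℤ) = c at *
  refine null_eq_zero (D := DimLE) (G := fun B' Y => ∃ B₁ : ℤ, B' = 2 * B₁ ∧ TowObj h m B₁ Y)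
    (d := 2 * c) (fun n W hW => hW.shift 1) ?_ ?_ ?_ (B := 2 * B) (X := X) ⟨B, rfl, hX⟩ s n W hW
    ?_ g (AF_one_iff.1 hg)
  · rintro B' X Y e ⟨B₁, hB, hY⟩
    exact ⟨B₁, hB, hY.of_iso e⟩
  · rintro B' Y ⟨B₁, rfl, hY⟩
    obtain ⟨Y', E₀, C, i', r', f', g', k', h2, h3, h4, h5, h6⟩ := hstep m B₁ Y hY
    rw [hc] at h6
    exact ⟨Y', E₀, C, i', r', f', g', k', h2, h3, h4, h5, B₁ + c, by ring, h6⟩
  · rintro B' Y ⟨B₁, rfl, hY⟩ n W hW hn f
    exact hY.hom_eq_zero hW hn f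
  · have h2 : (2 * c - 1) * ((s : ℤ) + 1) = (2 * c - 1) * (s : ℤ) + (2 * c - 1) := by ring
    rw [h2]
    linarith

end Vale.Agent.P093.N.Fin
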