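import Vale.Agent.P093.N1.Tower
import Vale.Agent.P093.N.Nak1
import Vale.Agent.P093.N.PLocMon
import Vale.Agent.P093.N.PLocRight
import Vale.Agent.P093.N4.Dim

/-!
# P093, part N, Step 1: the integral and the `p`-local ring, connectivity

`U : UTri T` (the integral ring `U.E`), `P` a monoid with a map `φ : U.E ⟶ P` of objects under `𝟙`
(the `p`-local ring `R ⊗ S_(p)`).

* `inj_of_modStr` : modules over `P` are `U`-injective
* `null_of_mono` : the connecting map of a triangle with `P ⊗ f` mono is `U`-null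
* `isIso_inl` : `R ⊗ X ⟶ (R ⊗ S_(p)) ⊗ X` is an isomorphism for `p`-local `X`
* `conn_coprod`, `conn_Sp_tensor`, `conn_free` : connectivity
-/

open CategoryTheory MonoidalCategory MonObj Limits Pretriangulated

set_option linter.unusedSectionVars false

universe v u

namespace Vale.Agent.P093.N1

open Vale.Agent.P251.T Vale.Agent.P251.S Vale.Agent.P251.M Vale.Agent.P093.N.TT
  Vale.Agent.P093.N.TT.UTri Vale.Agent.P093.Nak Vale.Agent.P093.PLoc

section Bridge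

variable {T : Type u} [Category.{v} T] [Preadditive T] [HasZeroObject T]
    [HasShift T ℤ] [∀ n : ℤ, (shiftFunctor T n).Additive] [Pretriangulated T]
    [MonoidalCategory T] [SymmetricCategory T] [TensorTriangulated T]
    {U : UTri T} {P : T} [MonObj P] {φ : U.E ⟶ P}

lemma η_comp (hφ : U.u ≫ φ = η[P]) (X : T) : U.η X ≫ φ ▷ X = un P X := by
  unfold UTri.η un
  rw [Category.assoc, ← comp_whiskerRight, hφ]

/-- `P`-modules are `U`-injective. -/
lemma inj_of_modStr (hφ : U.u ≫ φ = η[P]) {N : T} (M : ModStr P N) : U.Inj N :=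
  ⟨φ ▷ N ≫ M.act, by rw [← Category.assoc, η_comp hφ, un_act]⟩

/-- A map of `U`-Adams filtration one is `P`-null. -/
lemma un_eq_zero_of_null (hφ : U.u ≫ φ = η[P]) {X Y : T} {f : X ⟶ Y} (h : U.Null f) :
    f ≫ un P Y = 0 := by
  unfold UTri.Null at h
  rw [← η_comp hφ, ← Category.assoc, h, zero_comp]

lemma null_of_un (hφ : U.u ≫ φ = η[P]) {X Y : T} [hY : Mono (φ ▷ Y)] {f : X ⟶ Y}
    (h : f ≫ un P Y = 0) : U.Null f := by
  unfold UTri.Null
  rw [← cancel_mono (φ ▷ Y), zero_comp, Category.assoc, η_comp hφ, h]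

/-- The third map of a distinguished triangle, tensored with `P`, vanishes when the first one is
mono after tensoring with `P`. -/
lemma whiskerLeft_mor₃_eq_zero (P : T) {Y E₀ C : T} {f : Y ⟶ E₀} {g : E₀ ⟶ C}
    {h : C ⟶ Y⟦(1 : ℤ)⟧} (hΔ : Triangle.mk f g h ∈ distTriang T) [hf : Mono (P ◁ f)] :
    P ◁ h = 0 := by
  obtain ⟨k, hk, hΔ'⟩ : ∃ k : P ⊗ C ⟶ (P ⊗ Y)⟦(1 : ℤ)⟧, k ≫ (tsh P Y).hom = P ◁ h ∧
      Triangle.mk (P ◁ f) (P ◁ g) k ∈ distTriang T := triL P _ hΔ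
  have h1 : k ≫ (P ◁ f)⟦(1 : ℤ)⟧' = 0 := comp_distTriang_mor_zero₃₁ _ hΔ'
  have h2 : Mono ((P ◁ f)⟦(1 : ℤ)⟧') := inferInstance
  have h3 : k = 0 := by rw [← cancel_mono ((P ◁ f)⟦(1 : ℤ)⟧'), h1, zero_comp]
  rw [← hk, h3, zero_comp]

/-- The connecting map of a triangle with `P ⊗ f` mono is `U`-null. -/
lemma null_of_mono (hφ : U.u ≫ φ = η[P]) {Y E₀ C : T} {f : Y ⟶ E₀} {g : E₀ ⟶ C}
    {h : C ⟶ Y⟦(1 : ℤ)⟧} (hΔ : Triangle.mk f g h ∈ distTriang T) [Mono (P ◁ f)]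
    [Mono (φ ▷ (Y⟦(1 : ℤ)⟧))] : U.Null h := by
  apply null_of_un hφ
  rw [un_naturality, whiskerLeft_mor₃_eq_zero P hΔ, comp_zero]

end Bridge

section Stable

variable {T : Type u} [Category.{v} T] [Preadditive T] [HasZeroObject T]
    [HasShift T ℤ] [∀ n : ℤ, (shiftFunctor T n).Additive] [Pretriangulated T] [IsTriangulated T]
    [MonoidalCategory T] [SymmetricCategory T] [TensorTriangulated T] [MonoidalClosed T]
    [HasCoproducts.{0} T] [HasProducts.{0} T] [StableCat T]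

/-- For a `p`-local object `X`, the map `R ⊗ X ⟶ (R ⊗ S_(p)) ⊗ X` is an isomorphism. -/
lemma isIso_inl {p : ℕ} (hp : p ≠ 1) (R : T) {X : T} (hX : IsPLocal p X) :
    IsIso (((ρ_ R).inv ≫ R ◁ eta T p) ▷ X) := by
  have h1 : (((ρ_ R).inv ≫ R ◁ eta T p) ▷ X) ≫ (α_ R (Sp T p) X).hom = R ◁ etaX p X := by
    unfold etaX
    simp
  have h2 : IsIso (etaX p X) := hX.isIso_etaX hp
  have h3 : IsIso ((((ρ_ R).inv ≫ R ◁ eta T p) ▷ X) ≫ (α_ R (Sp T p) X).hom) := by
    rw [h1]; infer_instance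
  exact IsIso.of_isIso_comp_right _ (α_ R (Sp T p) X).hom

lemma conn_coprod {n : ℤ} {I : Type} (X : I → T) (h : ∀ i, Conn n (X i)) : Conn n (∐ X) := by
  intro k hk f
  obtain ⟨s, g, rfl⟩ := compact_sum X (isSphere_one_shift k) f
  refine Finset.sum_eq_zero fun i _ => ?_
  rw [h i k hk (g i), zero_comp]

lemma conn_Sp_tensor {p : ℕ} (hp : p ≠ 1) {n : ℤ} {X : T} (hX : Conn n X) :
    Conn n (Sp T p ⊗ X) := by
  intro k hk f
  obtain ⟨q, g, hq, hg⟩ := exists_lift_of_isCpt (p := p) (isCpt_sph k) f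
  rw [hX k hk g, zero_comp] at hg
  exact (isPLocal_Sp_tensor hp X).eq_zero (q := (q : ℤ)) (by simpa using hq) hg.symm

/-- `S_k` is the standard sphere of dimension `2 k`. -/
lemma conn_sphere (h0 : Conn 0 (𝟙_ T)) (k : ℤ) : Conn (2 * k) ((stdEven T).S k) :=
  Conn.of_iso ((stdEven T).sphIso (Iso.refl _) k).symm (h0.shift (2 * k) _ (by ring))

lemma bigCell_sphere (k : ℤ) : BigCell T (2 * k) ((stdEven T).S k) :=
  BigCell.of_iso ((stdEven T).sphIso (Iso.refl _) k).symm (BigCell.sphere _ le_rfl)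

lemma bigCell_wedge {I : Type} (d : I → ℤ) {B : ℤ} (h : ∀ i, B ≤ d i) :
    BigCell T (2 * B) (∐ fun i => (stdEven T).S (d i)) :=
  BigCell.coprod _ fun i => (bigCell_sphere (d i)).mono (by have := h i; omega)

/-- connectivity of objects with big cells -/
lemma conn_of_bigCell (h0 : Conn 0 (𝟙_ T)) {n : ℤ} {X : T} (hX : BigCell T n X) : Conn n X :=
  hX.conn h0 fun Y k f => StableCat.compact k Y f

/-- connectivity of `(R ⊗ S_(p)) ⊗ Q` -/
lemma conn_free {p : ℕ} (hp : p ≠ 1) (h0 : Conn 0 (𝟙_ T)) {R Q : T} {n : ℤ}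
    (hR : BigCell T 0 R) (hQ : BigCell T n Q) : Conn n ((R ⊗ Sp T p) ⊗ Q) := by
  have h1 : Conn n (R ⊗ Q) := conn_of_bigCell h0 (hR.tensor hQ n (by ring))
  have e : Sp T p ⊗ (R ⊗ Q) ≅ (R ⊗ Sp T p) ⊗ Q :=
    (α_ _ _ _).symm ≪≫ whiskerRightIso (β_ _ _) Q
  exact Conn.of_iso e (conn_Sp_tensor hp h1)

lemma isPLocal_free {p : ℕ} (hp : p ≠ 1) (R Q : T) : IsPLocal p ((R ⊗ Sp T p) ⊗ Q) :=
  (((isPLocal_Sp hp).tensor_left R).tensor_right Q)

/-- tensoring with a bounded below cell object keeps objects bounded below -/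
lemma conn_tensor_bigCell {m n : ℤ} {X Q : T} (hX : Conn m X) (hQ : BigCell T n Q) :
    Conn (m + n) (X ⊗ Q) := by
  induction hQ with
  | sphere k hk =>
    exact (Conn.of_iso (tensorSph k X).symm (hX.shift k _ rfl)).mono (by omega)
  | coprod Y _ ih =>
    exact Conn.of_iso (PreservesCoproduct.iso (tensorLeft X) Y).symm (conn_coprod _ ih)
  | ext Δ hΔ _ _ ih₁ ih₃ =>
    exact Conn.ext _ (TensorTriangulated.distinguished X Δ hΔ) ih₁ ih₃

end Stable

end Vale.Agent.P093.N1
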