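import Vale.Agent.P093.N.Nak2
import Vale.Agent.P251.X.HomV
import Vale.Agent.P251.X.VGraPre

/-!
# P093, part N1 (s2): maps `X ⟶ P ⊗ Q` with a given constant term

`c : Pt E P p 0`, `H X := Vtot c X`.

* `mapL c g` : the map `H X ⟶ H Y` induced by a linear map `g : P ⊗ X ⟶ P ⊗ Y`;
* `cst c Q : H (P ⊗ Q) ⟶ H Q` : the constant term, induced by the action of `P` on `P ⊗ Q`;
* `exists_f0` : if `X` has a `P`-basis, every graded map `H X ⟶ H Q` is the constant term of
  `H g`, `g : X ⟶ P ⊗ Q`.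
-/

open CategoryTheory MonoidalCategory MonObj Limits Pretriangulated

set_option linter.unusedSectionVars false

universe v u

noncomputable section

namespace Vale.Agent.P093.N1

open Vale.Agent.P251.S Vale.Agent.P251.T Vale.Agent.P251.M Vale.Agent.P251.M.EvenSpheres
  Vale.Agent.P251.X Vale.Agent.P093.Nak

section basic

variable {T : Type u} [Category.{v} T] [Preadditive T] [MonoidalCategory T]
  [MonoidalPreadditive T] [SymmetricCategory T] {E : EvenSpheres T} {P : T} [MonObj P]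
  {p N : ℕ}

/-- the map of `MP` induced by a linear map `P ⊗ X ⟶ P ⊗ Y` -/
def MPL {X Y : T} (g : P ⊗ X ⟶ P ⊗ Y) (hg : (ModStr.free P X).IsLinear (ModStr.free P Y) g) :
    MP E P X →ₗ[HRing E P] MP E P Y where
  toFun := MP.lift fun j =>
    { toFun := fun x => MP.of E P Y j (x ≫ g)
      map_zero' := by rw [zero_comp, map_zero]
      map_add' := fun x y => by rw [Preadditive.add_comp, map_add] }
  map_add' := map_add _
  map_smul' a x := by
    rw [RingHom.id_apply]
    induction a using DirectSum.induction_on with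
    | zero => rw [zero_smul, map_zero, zero_smul]
    | of i a =>
      induction x using MP.ind with
      | zero => rw [smul_zero, map_zero, smul_zero]
      | of j x =>
        change MP.lift _ (HRing.of E P i a • MP.of E P X j x) =
          HRing.of E P i a • MP.lift _ (MP.of E P X j x)
        rw [MP.smul_of (k := i + j) rfl, MP.lift_of, MP.lift_of]
        change MP.of E P Y (i + j) (gsmul (ModStr.free P X) rfl a x ≫ g) =
          HRing.of E P i a • MP.of E P Y j (x ≫ g)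
        rw [MP.smul_of (k := i + j) rfl, gsmul_comp _ _ hg]
      | add x y hx hy => rw [smul_add, map_add, map_add, hx, hy, smul_add]
    | add a b ha hb => rw [add_smul, map_add, ha, hb, add_smul]

@[simp] theorem MPL_of {X Y : T} (g : P ⊗ X ⟶ P ⊗ Y)
    (hg : (ModStr.free P X).IsLinear (ModStr.free P Y) g) (j : ℤ) (x : E.S j ⟶ P ⊗ X) :
    MPL g hg (MP.of E P X j x) = MP.of E P Y j (x ≫ g) :=
  MP.lift_of (W := X) (B := MP E P Y) (fun j =>
    { toFun := fun x => MP.of E P Y j (x ≫ g)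
      map_zero' := by rw [zero_comp, map_zero]
      map_add' := fun x y => by rw [Preadditive.add_comp, map_add] }) j x

theorem MPL_mem {c : Pt E P p N} {X Y : T} (g : P ⊗ X ⟶ P ⊗ Y)
    (hg : (ModStr.free P X).IsLinear (ModStr.free P Y) g) (x : MP E P X)
    (hx : x ∈ c.I • (⊤ : Submodule (HRing E P) (MP E P X))) :
    MPL g hg x ∈ c.I • (⊤ : Submodule (HRing E P) (MP E P Y)) := by
  have h1 : MPL g hg x ∈ (c.I • (⊤ : Submodule (HRing E P) (MP E P X))).map
    (MPL g hg) := ⟨x, hx, rfl⟩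
  rw [Submodule.map_smul''] at h1
  exact Submodule.smul_mono le_rfl le_top h1

/-- the map of `H` induced by a linear map `P ⊗ X ⟶ P ⊗ Y` -/
def mapL (c : Pt E P p N) {X Y : T} (g : P ⊗ X ⟶ P ⊗ Y)
    (hg : (ModStr.free P X).IsLinear (ModStr.free P Y) g) : Vtot c X →ₗ[ZMod p] Vtot c Y :=
  AddMonoidHom.toZModLinearMap p (Vtot.desc ((Vtot.mk c Y).comp (MPL g hg).toAddMonoidHom)
    (fun x hx => by
      rw [AddMonoidHom.comp_apply, Vtot.mk_eq_zero]
      exact MPL_mem g hg x hx))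

@[simp] theorem mapL_mk (c : Pt E P p N) {X Y : T} (g : P ⊗ X ⟶ P ⊗ Y)
    (hg : (ModStr.free P X).IsLinear (ModStr.free P Y) g) (x : MP E P X) :
    mapL c g hg (Vtot.mk c X x) = Vtot.mk c Y (MPL g hg x) := rfl

/-- `H f` is the map induced by `P ◁ f` -/
theorem map_eq_mapL (c : Pt E P p N) {X Y : T} (f : X ⟶ Y) :
    Vtot.map c f = mapL c (P ◁ f) (Nak.isLinear_whiskerLeft f) := rfl

theorem MPL_comp {X Y Z : T} (g : P ⊗ X ⟶ P ⊗ Y)
    (hg : (ModStr.free P X).IsLinear (ModStr.free P Y) g) (g' : P ⊗ Y ⟶ P ⊗ Z)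
    (hg' : (ModStr.free P Y).IsLinear (ModStr.free P Z) g')
    (hgg : (ModStr.free P X).IsLinear (ModStr.free P Z) (g ≫ g')) (x : MP E P X) :
    MPL g' hg' (MPL g hg x) = MPL (g ≫ g') hgg x := by
  induction x using MP.ind with
  | zero => simp only [map_zero]
  | of j x => simp only [MPL_of, Category.assoc]
  | add x y hx hy => simp only [map_add, hx, hy]

theorem mapL_comp (c : Pt E P p N) {X Y Z : T} (g : P ⊗ X ⟶ P ⊗ Y)
    (hg : (ModStr.free P X).IsLinear (ModStr.free P Y) g) (g' : P ⊗ Y ⟶ P ⊗ Z)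
    (hg' : (ModStr.free P Y).IsLinear (ModStr.free P Z) g')
    (hgg : (ModStr.free P X).IsLinear (ModStr.free P Z) (g ≫ g')) (x : Vtot c X) :
    mapL c g' hg' (mapL c g hg x) = mapL c (g ≫ g') hgg x := by
  induction x using Vtot.ind with
  | h x => rw [mapL_mk, mapL_mk, mapL_mk, MPL_comp g hg g' hg' hgg]

variable (P) in
/-- the action of `P` on `P ⊗ Q` is linear -/
theorem act_isLinear (Q : T) :
    (ModStr.free P (P ⊗ Q)).IsLinear (ModStr.free P Q) (ModStr.free P Q).act := by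
  have h1 := lin_isLinear (ModStr.free P Q) (𝟙 (P ⊗ Q))
  have h2 : lin (ModStr.free P Q) (𝟙 (P ⊗ Q)) = (ModStr.free P Q).act := by
    unfold lin
    rw [whiskerLeft_id, Category.id_comp]
  rwa [h2] at h1

/-- **The constant term** `H (P ⊗ Q) ⟶ H Q`. -/
def cst (c : Pt E P p N) (Q : T) : Vtot c (P ⊗ Q) →ₗ[ZMod p] Vtot c Q :=
  mapL c (ModStr.free P Q).act (act_isLinear P Q)

theorem cst_mk_of (c : Pt E P p N) (Q : T) (j : ℤ) (x : E.S j ⟶ P ⊗ (P ⊗ Q)) :
    cst c Q (Vtot.mk c (P ⊗ Q) (MP.of E P (P ⊗ Q) j x)) =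
      Vtot.mk c Q (MP.of E P Q j (x ≫ (ModStr.free P Q).act)) := by
  unfold cst
  rw [mapL_mk, MPL_of]

/-- the constant term of `H g` is induced by the linear extension of `g` -/
theorem cst_map (c : Pt E P p N) {X Q : T} (g : X ⟶ P ⊗ Q) (x : Vtot c X) :
    cst c Q (Vtot.map c g x) =
      mapL c (lin (ModStr.free P Q) g) (lin_isLinear (ModStr.free P Q) g) x := by
  rw [map_eq_mapL]
  exact mapL_comp c _ _ _ _ (lin_isLinear (ModStr.free P Q) g) x

theorem cst_map_of (c : Pt E P p N) {X Q : T} (g : X ⟶ P ⊗ Q) (j : ℤ) (x : E.S j ⟶ P ⊗ X) :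
    cst c Q (Vtot.map c g (Vtot.mk c X (MP.of E P X j x))) =
      Vtot.mk c Q (MP.of E P Q j (x ≫ lin (ModStr.free P Q) g)) := by
  rw [cst_map, mapL_mk, MPL_of]

/-- homogeneous classes are represented by homogeneous elements -/
theorem exists_of_mem_H {c : Pt E P p 0} [NeZero p] {X : T} {i : ℤ} {y : Vtot c X}
    (hy : y ∈ Vtot.H c (i : ZMod 0) X) :
    ∃ m : E.S i ⟶ P ⊗ X, Vtot.mk c X (MP.of E P X i m) = y := by
  refine Vtot.H_induction (motive := fun y => ∃ m : E.S i ⟶ P ⊗ X,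
    Vtot.mk c X (MP.of E P X i m) = y) hy ?_ ?_ ?_ ?_
  · intro d x hd
    have h1 : d = i := hd
    subst h1
    exact ⟨x, rfl⟩
  · exact ⟨0, by rw [map_zero, map_zero]⟩
  · rintro _ _ ⟨m, rfl⟩ ⟨m', rfl⟩
    exact ⟨m + m', by rw [map_add, map_add]⟩
  · rintro a _ ⟨m, rfl⟩
    exact ⟨a.val • m, by rw [map_nsmul, map_nsmul, Vtot.zmod_smul]⟩

theorem of_mem_H (c : Pt E P p 0) (X : T) (i : ℤ) (m : E.S i ⟶ P ⊗ X) :
    Vtot.mk c X (MP.of E P X i m) ∈ Vtot.H c (i : ZMod 0) X :=
  Vtot.mk_of_mem i rfl m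

end basic

section stable

variable {T : Type u} [Category.{v} T] [Preadditive T] [HasZeroObject T]
    [HasShift T ℤ] [∀ n : ℤ, (shiftFunctor T n).Additive] [Pretriangulated T] [IsTriangulated T]
    [MonoidalCategory T] [SymmetricCategory T] [TensorTriangulated T] [MonoidalClosed T]
    [HasCoproducts.{0} T] [HasProducts.{0} T] [StableCat T] {E : EvenSpheres T}
    {P : T} [MonObj P] {p : ℕ} [Fact p.Prime] {c : Pt E P p 0}

/-- two linear maps which agree on the classes of a basis are equal -/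
theorem H_ext {X : T} {J : Type} (b : RBasis E P X J) (hS : ∀ n, IsSphere (E.S n))
    {V : Type*} [AddCommGroup V] [Module (ZMod p) V] {f g : Vtot c X →ₗ[ZMod p] V}
    (h : ∀ j, f (Vtot.mk c X (MP.of E P X (b.k j) (b.w j))) =
      g (Vtot.mk c X (MP.of E P X (b.k j) (b.w j)))) : f = g := by
  have hp : NeZero p := ⟨(Fact.out : p.Prime).ne_zero⟩
  apply LinearMap.ext
  intro x
  induction x using Vtot.ind with
  | h x =>
    have hx := b.span_eq_top hS (x := x) trivial
    induction hx using Submodule.span_induction with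
    | mem x hx =>
      obtain ⟨j, rfl⟩ := hx
      exact h j
    | zero => simp only [map_zero]
    | add x y _ _ hx hy => simp only [map_add, hx, hy]
    | smul a x _ hx => rw [Vtot.mk_smul, map_smul, map_smul, hx]

/-- **Maps with a given constant term.** -/
theorem exists_f0 {X Q : T} {J : Type} (b : RBasis E P X J) (hS : ∀ n, IsSphere (E.S n))
    (π : Vtot c X →ₗ[ZMod p] Vtot c Q)
    (hπ : ∀ (i : ℤ) (x : Vtot c X), x ∈ Vtot.H c (i : ZMod 0) X → π x ∈ Vtot.H c (i : ZMod 0) Q) :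
    ∃ g : X ⟶ P ⊗ Q, ∀ x : Vtot c X, cst c Q (Vtot.map c g x) = π x := by
  have hp : NeZero p := ⟨(Fact.out : p.Prime).ne_zero⟩
  choose m hm using fun j => exists_of_mem_H (hπ (b.k j) _ (of_mem_H c X (b.k j) (b.w j)))
  refine ⟨b.realize (ModStr.free P Q) m, ?_⟩
  have h1 : (cst c Q).comp (Vtot.map c (b.realize (ModStr.free P Q) m)) = π := by
    refine H_ext b hS fun j => ?_
    rw [LinearMap.comp_apply, cst_map_of, b.w_lin_realize, hm]
  intro x
  rw [← h1]
  rfl

end stable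

end Vale.Agent.P093.N1
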