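import Vale.Agent.P093.N1.LamT
import Vale.Agent.P093.N.HKun
import Vale.Agent.P093.N.HAlg
import Vale.Agent.P093.N.Nak2

/-!
# P093, part N1 (L), part 2: `Lam : H (P ⊗ Q) = (J →₀ A')`, `Q = ∐ S^{2 d_j}`

`c : Pt E P p 0`, `H X = Vtot c X`, `Θ : π_*(P ⊗ P) ⟶ A'` a ring homomorphism which is `c.χ` on
the left unit.

* `hbasis` : the basis of `H X` given by a `P`-basis of `X`
* `crd`, `crd_push` : coordinates of `π_*(B ⊗ Q)`
* `Lam` (L1), `Lam_bijective` (L1), `cst_eq` (L3), `Lam_mulMap` (L5)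
-/

open CategoryTheory MonoidalCategory MonObj Limits Pretriangulated

set_option linter.unusedSectionVars false

universe v u w

noncomputable section

namespace Vale.Agent.P093.N1

open Vale.Agent.P251.S Vale.Agent.P251.T Vale.Agent.P251.M Vale.Agent.P251.M.EvenSpheres
  Vale.Agent.P251.X Vale.Agent.P093.Nak Vale.Agent.P093.N.HH

variable {T : Type u} [Category.{v} T] [Preadditive T] [HasZeroObject T]
    [HasShift T ℤ] [∀ n : ℤ, (shiftFunctor T n).Additive] [Pretriangulated T] [IsTriangulated T]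
    [MonoidalCategory T] [SymmetricCategory T] [TensorTriangulated T] [MonoidalClosed T]
    [HasCoproducts.{0} T] [HasProducts.{0} T] [StableCat T] {E : EvenSpheres T}

/-! ### The basis of `H X` -/

section hbasis

variable {P : T} [MonObj P] {p N : ℕ} [Fact p.Prime] (c : Pt E P p N) {X : T} {J : Type}
  (b : RBasis E P X J) (hS : ∀ n, IsSphere (E.S n))

theorem chi_surjective : Function.Surjective c.χ := by
  have hp : NeZero p := ⟨(Fact.out : p.Prime).ne_zero⟩
  intro a
  refine ⟨(a.val : HRing E P), ?_⟩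
  rw [map_natCast, ZMod.natCast_zmod_val]

theorem exists_hbasis : ∃ v : Module.Basis J (ZMod p) (Vtot c X),
    (∀ j, v j = Vtot.mk c X (MP.of E P X (b.k j) (b.w j))) ∧
      ∀ x j, v.repr (Vtot.mk c X x) j = c.χ ((b.basis hS).repr x j) := by
  have hp : NeZero p := ⟨(Fact.out : p.Prime).ne_zero⟩
  obtain ⟨v, h1, h2⟩ := exists_redBasis c.χ (b.basis hS) (Vtot.mk c X)
    (fun a m => Vtot.mk_smul a m) (chi_surjective c) Vtot.mk_surjective
    (fun x hx => Vtot.mk_eq_zero.1 hx)
  exact ⟨v, fun j => by rw [h1, RBasis.basis_apply], h2⟩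

/-- the basis of `H X` -/
def hbasis : Module.Basis J (ZMod p) (Vtot c X) := (exists_hbasis c b hS).choose

@[simp] theorem hbasis_apply (j : J) :
    hbasis c b hS j = Vtot.mk c X (MP.of E P X (b.k j) (b.w j)) :=
  (exists_hbasis c b hS).choose_spec.1 j

theorem hbasis_repr_mk (x : MP E P X) (j : J) :
    (hbasis c b hS).repr (Vtot.mk c X x) j = c.χ ((b.basis hS).repr x j) :=
  (exists_hbasis c b hS).choose_spec.2 x j

end hbasis

section hgr

variable {P : T} [MonObj P] {p : ℕ} [Fact p.Prime] {c : Pt E P p 0} {X : T} {J : Type}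
  {b : RBasis E P X J} {hS : ∀ n, IsSphere (E.S n)}

/-- the homogeneous elements in terms of the basis -/
theorem mem_H_iff {i : ℤ} {x : Vtot c X} :
    x ∈ Vtot.H c (i : ZMod 0) X ↔ ∀ j, (hbasis c b hS).repr x j ≠ 0 → b.k j = i := by
  have hp : NeZero p := ⟨(Fact.out : p.Prime).ne_zero⟩
  constructor
  · intro hx j hj
    obtain ⟨m, rfl⟩ := exists_of_mem_H hx
    rw [hbasis_repr_mk, b.repr_of hS m j] at hj
    by_contra hne
    refine hj (c.χ_of _ (fun h => hne ?_) _)
    have h1 : i - b.k j = 0 := by simpa using h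
    linarith
  · intro h
    rw [← (hbasis c b hS).linearCombination_repr x, Finsupp.linearCombination_apply]
    refine Submodule.sum_mem _ fun j hj => ?_
    refine Submodule.smul_mem _ _ ?_
    rw [hbasis_apply, ← h j (Finsupp.mem_support_iff.1 hj)]
    exact of_mem_H c X (b.k j) (b.w j)

end hgr

/-! ### Coordinates -/

section crd

variable (E) {J : Type} (d : J → ℤ) (hS : ∀ n, IsSphere (E.S n))

/-- the coproduct of spheres -/
abbrev Qs : T := ∐ fun j => E.S (d j)

/-- the coordinates of `π_*(B ⊗ Q)` -/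
def crd (B : T) [MonObj B] : MP E B (Qs E d) ≃ₗ[HRing E B] (J →₀ HRing E B) :=
  ((RBasis.taut (E := E) (R := B) J d).basis hS).repr

/-- the classes of the spheres -/
def tc (B : T) [MonObj B] (j : J) : MP E B (Qs E d) :=
  sphC E B (d j) (Sigma.ι (fun j => E.S (d j)) j)

theorem taut_basis_apply (B : T) [MonObj B] (j : J) :
    (RBasis.taut (E := E) (R := B) J d).basis hS j = tc E d B j := by
  rw [RBasis.basis_apply]
  rfl

@[simp] theorem crd_tc (B : T) [MonObj B] (j : J) :
    crd E d hS B (tc E d B j) = Finsupp.single j 1 := by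
  unfold crd
  rw [← taut_basis_apply E d hS, Module.Basis.repr_self]

theorem crd_smul_tc (B : T) [MonObj B] (z : HRing E B) (j : J) :
    crd E d hS B (z • tc E d B j) = Finsupp.single j z := by
  rw [map_smul, crd_tc, Finsupp.smul_single, smul_eq_mul, _root_.mul_one]

theorem push_tc {B B' : T} [MonObj B] [MonObj B'] (g : B ⟶ B') [IsMonHom g] (j : J) :
    MP.push E g (Qs E d) (tc E d B j) = tc E d B' j := push_sphC g _ _

theorem MP_Qs_ext {B : T} [MonObj B] {G : Type*} [AddCommMonoid G]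
    {f g : MP E B (Qs E d) →+ G} (hS : ∀ n, IsSphere (E.S n))
    (h : ∀ (z : HRing E B) (j : J), f (z • tc E d B j) = g (z • tc E d B j)) : f = g := by
  refine addHom_ext_basis ((RBasis.taut (E := E) (R := B) J d).basis hS) fun z j => ?_
  rw [taut_basis_apply]
  exact h z j

theorem crd_push {B B' : T} [MonObj B] [MonObj B'] (g : B ⟶ B') [IsMonHom g]
    (y : MP E B (Qs E d)) : crd E d hS B' (MP.push E g (Qs E d) y) =
      Finsupp.mapRange (HRing.map g) (map_zero _) (crd E d hS B y) := by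
  have h1 : ((crd E d hS B').toAddMonoidHom.comp (MP.push E g (Qs E d))) =
      (Finsupp.mapRange.addMonoidHom ((HRing.map (E := E) g) : HRing E B →+ HRing E B')).comp
        (crd E d hS B).toAddMonoidHom := by
    refine MP_Qs_ext E d hS fun z j => ?_
    change crd E d hS B' (MP.push E g (Qs E d) (z • tc E d B j)) =
      Finsupp.mapRange (HRing.map g) (map_zero _) (crd E d hS B (z • tc E d B j))
    rw [MP.push_smul, push_tc, crd_smul_tc, crd_smul_tc, Finsupp.mapRange_single]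
  exact DFunLike.congr_fun h1 y

end crd

/-! ### `Lam` -/

section Lam

variable {P : T} [MonObj P] {p N : ℕ} [Fact p.Prime] (c : Pt E P p N)
  {A' : Type w} [CommRing A'] [Algebra (ZMod p) A'] (Θ : HRing E (P ⊗ P) →+* A')
  {J : Type} (d : J → ℤ) (hS : ∀ n, IsSphere (E.S n))

/-- `Θ` of the coordinates -/
def LamM : MP E P (P ⊗ Qs E d) →+ (J →₀ A') :=
  (Finsupp.mapRange.addMonoidHom (Θ : HRing E (P ⊗ P) →+ A')).comp
    ((crd E d hS (P ⊗ P)).toAddMonoidHom.comp (ta E P (Qs E d)))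

theorem LamM_apply (x : MP E P (P ⊗ Qs E d)) (j : J) :
    LamM Θ d hS x j = Θ (crd E d hS (P ⊗ P) (ta E P (Qs E d) x) j) := rfl

variable {Θ}

theorem LamM_smul (hΘ : ∀ a, Θ (HRing.map (inlM P P) a) = algebraMap (ZMod p) A' (c.χ a))
    (a : HRing E P) (x : MP E P (P ⊗ Qs E d)) :
    LamM Θ d hS (a • x) = c.χ a • LamM Θ d hS x := by
  ext j
  rw [LamM_apply, ta_smul, map_smul, Finsupp.smul_apply, Finsupp.smul_apply, smul_eq_mul, map_mul,
    hΘ, LamM_apply, Algebra.smul_def]

theorem LamM_eq_zero (hΘ : ∀ a, Θ (HRing.map (inlM P P) a) = algebraMap (ZMod p) A' (c.χ a))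
    (x : MP E P (P ⊗ Qs E d))
    (hx : x ∈ c.I • (⊤ : Submodule (HRing E P) (MP E P (P ⊗ Qs E d)))) :
    LamM Θ d hS x = 0 := by
  refine Submodule.smul_induction_on (p := fun x => LamM Θ d hS x = 0) hx ?_ ?_
  · intro a ha y _
    rw [LamM_smul c d hS hΘ, c.mem_I.1 ha, zero_smul]
  · intro x y hx hy
    rw [map_add, hx, hy, add_zero]

/-- **`Lam : H (P ⊗ Q) ⟶ (J →₀ A')`.** -/
def Lam (hΘ : ∀ a, Θ (HRing.map (inlM P P) a) = algebraMap (ZMod p) A' (c.χ a)) :
    Vtot c (P ⊗ Qs E d) →ₗ[ZMod p] (J →₀ A') :=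
  (Vtot.desc (LamM Θ d hS) (LamM_eq_zero c d hS hΘ)).toZModLinearMap p

variable (hΘ : ∀ a, Θ (HRing.map (inlM P P) a) = algebraMap (ZMod p) A' (c.χ a))

theorem Lam_mk (x : MP E P (P ⊗ Qs E d)) (j : J) :
    Lam c d hS hΘ (Vtot.mk c _ x) j = Θ (crd E d hS (P ⊗ P) (ta E P (Qs E d) x) j) := rfl

/-- **(L5)** the product with `ξ`. -/
theorem Lam_mulMap {X A : T} (f : X ⟶ P ⊗ Qs E d) (ξ : A ⟶ P) (y : Vtot c X)
    [IsCommMonObj P] (n : ℤ) (σ : E.S n ⟶ A) :
    Lam c d hS hΘ (Vtot.map c (mulMap f ξ) (Vtot.prod c X A y (Vtot.mk c A (sphC E P n σ)))) =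
      (Lam c d hS hΘ (Vtot.map c f y)).mapRange
        (fun z => Θ (HRing.map (inrM P P) (HRing.of E P n (σ ≫ ξ))) * z) (mul_zero _) := by
  induction y using Vtot.ind with
  | h y =>
    ext j
    rw [Finsupp.mapRange_apply, Vtot.prod_mk, Vtot.map_mk, Vtot.map_mk, Lam_mk, Lam_mk, ta_mulMap,
      map_smul, Finsupp.smul_apply, smul_eq_mul, map_mul]

/-- **(L3)** the constant term. -/
theorem cst_eq [IsCommMonObj P] (ev : A' →+* ZMod p)
    (hev : ∀ z : HRing E (P ⊗ P), c.χ (HRing.map μ[P] z) = ev (Θ z))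
    (x : Vtot c (P ⊗ Qs E d)) (j : J) :
    (hbasis c (RBasis.taut (E := E) (R := P) J d) hS).repr (cst c (Qs E d) x) j =
      ev (Lam c d hS hΘ x j) := by
  induction x using Vtot.ind with
  | h x =>
    unfold cst
    rw [mapL_mk, hbasis_repr_mk, Lam_mk, ← hev, ← push_ta]
    change c.χ (crd E d hS P _ j) = _
    rw [crd_push, Finsupp.mapRange_apply]

/-- `Lam` on the basis -/
theorem Lam_basis [IsCommMonObj P] {K : Type} (bP : RBasis E P P K) (a : K) (j : J) :
    Lam c d hS hΘ (hbasis c (bP.tensor (RBasis.taut (E := E) (R := P) J d)) hS (a, j)) =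
      Finsupp.single j (Θ (HRing.of E (P ⊗ P) (bP.k a) (bP.w a))) := by
  rw [hbasis_apply, of_tensor_w]
  have h1 : MP.of E P (Qs E d) ((RBasis.taut (E := E) (R := P) J d).k j)
      ((RBasis.taut (E := E) (R := P) J d).w j) = tc E d P j := rfl
  rw [h1]
  have h2 : ta E P (Qs E d) (MP.cross E P P (Qs E d) (MP.of E P P (bP.k a) (bP.w a))
      (tc E d P j)) = (HRing.of E (P ⊗ P) (bP.k a) (bP.w a)) • tc E d (P ⊗ P) j :=
    ta_cross (Qs E d) (MP.of E P P (bP.k a) (bP.w a)) (d j) _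
  ext i
  rw [Lam_mk, h2, crd_smul_tc]
  classical
  rw [Finsupp.single_apply, Finsupp.single_apply]
  split_ifs
  · rfl
  · exact map_zero _

/-- `Lam` in terms of bases -/
theorem Lam_eq_equiv [IsCommMonObj P] {K : Type} (bP : RBasis E P P K)
    (v : Module.Basis K (ZMod p) A')
    (hv : ∀ a, v a = Θ (HRing.of E (P ⊗ P) (bP.k a) (bP.w a))) :
    Lam c d hS hΘ = ((hbasis c (bP.tensor (RBasis.taut (E := E) (R := P) J d)) hS).equiv
      (Finsupp.basis fun _ : J => v)
        ((Equiv.prodComm K J).trans (Equiv.sigmaEquivProd J K).symm)).toLinearMap := by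
  refine (hbasis c (bP.tensor (RBasis.taut (E := E) (R := P) J d)) hS).ext fun aj => ?_
  obtain ⟨a, j⟩ := aj
  rw [Lam_basis, LinearEquiv.coe_coe, Module.Basis.equiv_apply, ← hv]
  simp

/-- **(L1)** `Lam` is bijective. -/
theorem Lam_bijective [IsCommMonObj P] {K : Type} (bP : RBasis E P P K)
    (v : Module.Basis K (ZMod p) A')
    (hv : ∀ a, v a = Θ (HRing.of E (P ⊗ P) (bP.k a) (bP.w a))) :
    Function.Bijective (Lam c d hS hΘ) := by
  rw [Lam_eq_equiv c d hS hΘ bP v hv]
  exact LinearEquiv.bijective _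

/-- the coordinates of `Lam` -/
theorem repr_Lam [IsCommMonObj P] {K : Type} (bP : RBasis E P P K)
    (v : Module.Basis K (ZMod p) A')
    (hv : ∀ a, v a = Θ (HRing.of E (P ⊗ P) (bP.k a) (bP.w a)))
    (x : Vtot c (P ⊗ Qs E d)) (a : K) (j : J) :
    v.repr (Lam c d hS hΘ x j) a =
      (hbasis c (bP.tensor (RBasis.taut (E := E) (R := P) J d)) hS).repr x (a, j) := by
  classical
  let B := hbasis c (bP.tensor (RBasis.taut (E := E) (R := P) J d)) hS
  let f : Vtot c (P ⊗ Qs E d) →ₗ[ZMod p] ZMod p :=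
    (Finsupp.lapply a).comp (v.repr.toLinearMap.comp ((Finsupp.lapply j).comp (Lam c d hS hΘ)))
  let g : Vtot c (P ⊗ Qs E d) →ₗ[ZMod p] ZMod p :=
    (Finsupp.lapply (a, j)).comp B.repr.toLinearMap
  have h1 : f = g := by
    refine B.ext fun aj => ?_
    obtain ⟨a', j'⟩ := aj
    change v.repr (Lam c d hS hΘ (B (a', j')) j) a = B.repr (B (a', j')) (a, j)
    rw [Module.Basis.repr_self, Lam_basis, ← hv, Finsupp.single_apply, Finsupp.single_apply]
    by_cases hj : j' = j
    · subst hj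
      rw [if_pos rfl, Module.Basis.repr_self, Finsupp.single_apply]
      simp only [Prod.mk.injEq, and_true]
    · rw [if_neg hj, map_zero, if_neg (fun h => hj (congrArg Prod.snd h))]
      rfl
  exact DFunLike.congr_fun h1 x

end Lam

end Vale.Agent.P093.N1
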