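import Vale.Agent.P093.N1.LamGr
import Vale.Agent.P093.N.HCoact
import Vale.Agent.P093.N.Co.Int

/-!
# P093, part N1 (L4): `Lam` is colinear

`D : CoDat E P p A`, `Θ₁ : π_*(P ⊗ P) ⟶ A'` (on `Am P 2`), `Θ₂ : π_*(P ⊗ P ⊗ P) ⟶ A ⊗ A'`
(on `Am P 3`) with `Θ₂ d_2 = φ ⊗ 1`, `Θ₂ d_0 = 1 ⊗ Θ₁`, `Θ₂ d_1 = ρ Θ₁`.

* `colin_Lam` : `Lam` is colinear for the coaction of `A` on `J →₀ A'` given by `ρ`.
-/

open CategoryTheory MonoidalCategory MonObj Limits Pretriangulated TensorProduct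

set_option linter.unusedSectionVars false

universe v u w

noncomputable section

namespace Vale.Agent.P093.N1

open Vale.Agent.P251.S Vale.Agent.P251.T Vale.Agent.P251.M Vale.Agent.P251.M.EvenSpheres
  Vale.Agent.P251.X Vale.Agent.P093.Nak Vale.Agent.P093.N.HH Vale.Agent.P251.F

/-! ### The transport for two monoids -/

section core

variable {T : Type u} [Category.{v} T] [MonoidalCategory T] [SymmetricCategory T]
  {B P : T} [MonObj B] [MonObj P]

/-- the left unit and the action -/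
theorem inlM_actG (Q : T) : (inlM B P ⊗ₘ (α_ B P Q).inv) ≫ (ModStr.free (B ⊗ P) Q).act =
    (ModStr.free B (P ⊗ Q)).act ≫ (α_ B P Q).inv := by
  have h1 : (inlM B P ▷ (B ⊗ P)) ≫ μ[B ⊗ P] = (α_ B B P).inv ≫ μ[B] ▷ P := by
    have h2 := inlM_tensor_mul (𝟙 (B ⊗ P))
    rw [tensorHom_id, FM.bind, MonoidalCategory.whiskerLeft_id, Category.id_comp] at h2
    exact h2
  change _ ≫ (α_ (B ⊗ P) (B ⊗ P) Q).inv ≫ (μ[B ⊗ P] ▷ Q) =
    ((α_ B B (P ⊗ Q)).inv ≫ (μ[B] ▷ (P ⊗ Q))) ≫ _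
  have h3 : (inlM B P ⊗ₘ (α_ B P Q).inv) ≫ (α_ (B ⊗ P) (B ⊗ P) Q).inv ≫ (μ[B ⊗ P] ▷ Q) =
      B ◁ (α_ B P Q).inv ≫ (α_ B (B ⊗ P) Q).inv ≫ (((inlM B P ▷ (B ⊗ P)) ≫ μ[B ⊗ P]) ▷ Q) := by
    rw [tensorHom_def', comp_whiskerRight]
    simp
  rw [h3, h1]
  simp only [comp_whiskerRight, Category.assoc]
  rw [associator_inv_naturality_left]
  monoidal

end core

section taG

variable {T : Type u} [Category.{v} T] [Preadditive T] [MonoidalCategory T]
  [MonoidalPreadditive T] [SymmetricCategory T] {E : EvenSpheres T} {B B' P : T} [MonObj B]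
  [MonObj B'] [MonObj P]

/-- the transport `MP E B (P ⊗ Q) →+ MP E (B ⊗ P) Q` -/
def taG (E : EvenSpheres T) (B P Q : T) [MonObj B] [MonObj P] :
    MP E B (P ⊗ Q) →+ MP E (B ⊗ P) Q :=
  MP.lift fun j =>
    { toFun := fun x => MP.of E (B ⊗ P) Q j (x ≫ (α_ B P Q).inv)
      map_zero' := by rw [zero_comp, map_zero]
      map_add' := fun x y => by rw [Preadditive.add_comp, map_add] }

@[simp] theorem taG_of (Q : T) (j : ℤ) (x : E.S j ⟶ B ⊗ (P ⊗ Q)) :
    taG E B P Q (MP.of E B (P ⊗ Q) j x) = MP.of E (B ⊗ P) Q j (x ≫ (α_ B P Q).inv) :=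
  MP.lift_of (W := P ⊗ Q) (B := MP E (B ⊗ P) Q) (fun j =>
    { toFun := fun x => MP.of E (B ⊗ P) Q j (x ≫ (α_ B P Q).inv)
      map_zero' := by rw [zero_comp, map_zero]
      map_add' := fun x y => by rw [Preadditive.add_comp, map_add] }) j x

theorem taG_self (Q : T) : taG E P P Q = ta E P Q := rfl

theorem gsmul_taG (Q : T) {i j k : ℤ} (h : i + j = k) (a : E.S i ⟶ B)
    (x : E.S j ⟶ B ⊗ (P ⊗ Q)) :
    gsmul (ModStr.free B (P ⊗ Q)) h a x ≫ (α_ B P Q).inv =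
      gsmul (ModStr.free (B ⊗ P) Q) h (a ≫ inlM B P) (x ≫ (α_ B P Q).inv) := by
  unfold gsmul
  rw [ext_comp, Category.assoc, Category.assoc, inlM_actG]

theorem taG_smul (Q : T) (a : HRing E B) (x : MP E B (P ⊗ Q)) :
    taG E B P Q (a • x) = HRing.map (inlM B P) a • taG E B P Q x := by
  induction a using DirectSum.induction_on with
  | zero => rw [zero_smul, map_zero, map_zero, zero_smul]
  | of i a =>
    induction x using MP.ind with
    | zero => rw [smul_zero, map_zero, smul_zero]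
    | of j x =>
      change taG E B P Q (HRing.of E B i a • MP.of E B (P ⊗ Q) j x) =
        HRing.map (inlM B P) (HRing.of E B i a) • taG E B P Q (MP.of E B (P ⊗ Q) j x)
      rw [MP.smul_of (k := i + j) rfl, taG_of, taG_of, HRing.map_of, MP.smul_of (k := i + j) rfl,
        gsmul_taG]
    | add x y hx hy => rw [smul_add, map_add, map_add, hx, hy, smul_add]
  | add a b ha hb => rw [add_smul, map_add, ha, hb, map_add, add_smul]

/-- naturality in `B` -/
theorem taG_push (g : B ⟶ B') [IsMonHom g] (Q : T) (x : MP E B (P ⊗ Q)) :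
    taG E B' P Q (MP.push E g (P ⊗ Q) x) = MP.push E (g ▷ P) Q (taG E B P Q x) := by
  induction x using MP.ind with
  | zero => simp only [map_zero]
  | of j x =>
    rw [MP.push_of, taG_of, taG_of, MP.push_of, Category.assoc, Category.assoc,
      associator_inv_naturality_left]
  | add x y hx hy => simp only [map_add, hx, hy]

end taG

section faces

variable {T : Type u} [Category.{v} T] [MonoidalCategory T] [SymmetricCategory T] (P : T)
  [MonObj P] [IsCommMonObj P]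

theorem v_zero_whiskerRight :
    Am.v P (0 : Fin 2) ▷ P = kapH P ≫ (Am.map P ![(0 : Fin 3), 2] : Am P 2 ⟶ Am P 3) := by
  refine hom_ext_tensor ?_ ?_
  · rw [inlM_whiskerRight, inlM_kapH_assoc, Am.v_map]
    exact (Am.v_castSucc P (0 : Fin 2)).symm
  · rw [inrM_whiskerRight, inrM_kapH_assoc, Am.v_map]
    exact (Am.v_last P 2).symm

theorem v_one_whiskerRight :
    Am.v P (1 : Fin 2) ▷ P = kapH P ≫ (Am.map P ![(1 : Fin 3), 2] : Am P 2 ⟶ Am P 3) := by
  refine hom_ext_tensor ?_ ?_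
  · rw [inlM_whiskerRight, inlM_kapH_assoc, Am.v_map]
    exact (Am.v_castSucc P (1 : Fin 2)).symm
  · rw [inrM_whiskerRight, inrM_kapH_assoc, Am.v_map]
    exact (Am.v_last P 2).symm

theorem inlM_eq_map : inlM (Am P 2) P = (Am.map P ![(0 : Fin 3), 1] : Am P 2 ⟶ Am P 3) := by
  rw [← Am.map_castSucc]
  congr 1
  funext i
  fin_cases i <;> rfl

end faces

variable {T : Type u} [Category.{v} T] [Preadditive T] [HasZeroObject T]
    [HasShift T ℤ] [∀ n : ℤ, (shiftFunctor T n).Additive] [Pretriangulated T] [IsTriangulated T]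
    [MonoidalCategory T] [SymmetricCategory T] [TensorTriangulated T] [MonoidalClosed T]
    [HasCoproducts.{0} T] [HasProducts.{0} T] [StableCat T] {E : EvenSpheres T}

variable {P : T} [MonObj P] [IsCommMonObj P] {p : ℕ} [Fact p.Prime]
  {A : Type w} [CommRing A] [Bialgebra (ZMod p) A] (D : CoDat E P p A)
  {A' : Type w} [CommRing A'] [Algebra (ZMod p) A'] {Θ₁ : HRing E (Am P 2) →+* A'}
  {Θ₂ : HRing E (Am P 3) →+* A ⊗[ZMod p] A'}
  {J : Type} (d : J → ℤ) (hS : ∀ n, IsSphere (E.S n))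

/-- `(J →₀ A ⊗ A') ⟶ A ⊗ (J →₀ A')` -/
def sJ (p : ℕ) [Fact p.Prime] (A A' : Type w) [CommRing A] [Bialgebra (ZMod p) A] [CommRing A']
    [Algebra (ZMod p) A'] (J : Type) :
    (J →₀ A ⊗[ZMod p] A') →ₗ[ZMod p] A ⊗[ZMod p] (J →₀ A') :=
  Finsupp.lsum (ZMod p) fun j => (Finsupp.lsingle j).lTensor A

theorem sJ_single (j : J) (t : A ⊗[ZMod p] A') :
    sJ p A A' J (Finsupp.single j t) = (Finsupp.lsingle j).lTensor A t := by
  unfold sJ
  rw [Finsupp.lsum_single]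

theorem sJ_mapRange (ρ : A' →ₗ[ZMod p] A ⊗[ZMod p] A') (x : J →₀ A') :
    sJ p A A' J (x.mapRange ρ (map_zero ρ)) = Vale.Agent.P093.N.Co.fco J ρ x := by
  induction x using Finsupp.induction_linear with
  | zero => rw [Finsupp.mapRange_zero, map_zero, map_zero]
  | add x y hx hy =>
    rw [Finsupp.mapRange_add (fun a b => map_add ρ a b), map_add, map_add, hx, hy]
  | single j a => rw [Finsupp.mapRange_single, sJ_single, Vale.Agent.P093.N.Co.fco_single]

theorem sJ_tmul (a : A) (x : J →₀ A') :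
    sJ p A A' J (x.mapRange (fun z => a ⊗ₜ[ZMod p] z) (tmul_zero _ a)) = a ⊗ₜ x := by
  induction x using Finsupp.induction_linear with
  | zero => rw [Finsupp.mapRange_zero, map_zero, tmul_zero]
  | add x y hx hy =>
    rw [Finsupp.mapRange_add (fun u v => tmul_add a u v), map_add, hx, hy, tmul_add]
  | single j b => rw [Finsupp.mapRange_single, sJ_single]; rfl

variable (Θ₂) in
/-- the coordinates of `π_*(P ⊗ P ⊗ P ⊗ Q)` -/
def G2 : MP E (Am P 2) (P ⊗ Qs E d) →+ A ⊗[ZMod p] (J →₀ A') :=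
  (sJ p A A' J).toAddMonoidHom.comp
    ((Finsupp.mapRange.addMonoidHom (Θ₂ : HRing E (Am P 3) →+ A ⊗[ZMod p] A')).comp
      ((crd E d hS (Am P 3)).toAddMonoidHom.comp (taG E (Am P 2) P (Qs E d))))

theorem G2_apply (y : MP E (Am P 2) (P ⊗ Qs E d)) :
    G2 Θ₂ d hS y = sJ p A A' J ((crd E d hS (Am P 3) (taG E (Am P 2) P (Qs E d) y)).mapRange
      Θ₂ (map_zero Θ₂)) := rfl

theorem crd_taG_push (i : Fin 2) (j : Fin 3)
    (hv : Am.v P i ▷ P = kapH P ≫ (Am.map P ![j, 2] : Am P 2 ⟶ Am P 3))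
    (x : MP E P (P ⊗ Qs E d)) (l : J) :
    crd E d hS (Am P 3) (taG E (Am P 2) P (Qs E d)
      (MP.push E (Am.v P i) (P ⊗ Qs E d) x)) l =
      HRing.map (Am.map P ![j, 2] : Am P 2 ⟶ Am P 3)
        (HRing.map (kapH P) (crd E d hS (P ⊗ P) (ta E P (Qs E d) x) l)) := by
  rw [taG_push, taG_self, crd_push (B' := Am P 3), Finsupp.mapRange_apply]
  exact (CoDat.HRing_map_map (kapH P) (Am.map P ![j, 2] : Am P 2 ⟶ Am P 3) (Am.v P i ▷ P)
    hv.symm _).symm

theorem theta_inlM (hv₀ : ∀ a, Θ₁ (HRing.map (Am.v P (0 : Fin 2)) a) =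
    algebraMap (ZMod p) A' (D.c.χ a)) (a : HRing E P) :
    (Θ₁.comp (HRing.map (kapH P))) (HRing.map (inlM P P) a) =
      algebraMap (ZMod p) A' (D.c.χ a) := by
  rw [RingHom.comp_apply,
    CoDat.HRing_map_map (inlM P P) (kapH P) (Am.v P (0 : Fin 2)) (inlM_kapH P), hv₀]

/-- **(L4)** `Lam` is colinear. -/
theorem colin_Lam (hP : Good E P (P ⊗ Qs E d)) (ρ : A' →ₗ[ZMod p] A ⊗[ZMod p] A')
    (hv₀ : ∀ a, Θ₁ (HRing.map (Am.v P (0 : Fin 2)) a) = algebraMap (ZMod p) A' (D.c.χ a))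
    (h01 : ∀ z, Θ₂ (HRing.map (Am.map P ![0, 1]) z) = D.φ z ⊗ₜ 1)
    (h12 : ∀ z, Θ₂ (HRing.map (Am.map P ![1, 2]) z) = 1 ⊗ₜ Θ₁ z)
    (h02 : ∀ z, Θ₂ (HRing.map (Am.map P ![0, 2]) z) = ρ (Θ₁ z)) :
    Vale.Agent.P093.N.Co.Colin (D.psi (P ⊗ Qs E d)) (Vale.Agent.P093.N.Co.fco J ρ)
      (Lam D.c (Θ := Θ₁.comp (HRing.map (kapH P))) d hS (theta_inlM D hv₀)) := by
  have key : ((Lam D.c (Θ := Θ₁.comp (HRing.map (kapH P))) d hS
      (theta_inlM D hv₀)).lTensor A).toAddMonoidHom.comp (D.theta₂ (P ⊗ Qs E d)) =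
      G2 Θ₂ d hS := by
    refine (hP.along hS (Am.v P (1 : Fin 2))).ext fun z x => ?_
    change (Lam D.c (Θ := Θ₁.comp (HRing.map (kapH P))) d hS
      (theta_inlM D hv₀)).lTensor A (D.theta₂ (P ⊗ Qs E d)
        (z • MP.push E (Am.v P (1 : Fin 2)) (P ⊗ Qs E d) x)) = _
    have h2 : D.theta₂ (P ⊗ Qs E d) (z • MP.push E (Am.v P (1 : Fin 2)) (P ⊗ Qs E d) x) =
        D.φ z ⊗ₜ Vtot.mk D.c _ x := theta_smul_push D.c (hP.along hS _) D.over₁ z x
    have h4 : Θ₂ (HRing.map (inlM (Am P 2) P) z) = D.φ z ⊗ₜ 1 := by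
      rw [← h01]
      exact congrArg (fun f => Θ₂ (f z)) (HRing_map_congr (E := E) (inlM_eq_map P))
    rw [h2, LinearMap.lTensor_tmul, G2_apply, taG_smul, ← sJ_tmul]
    congr 1
    ext l : 1
    rw [Finsupp.mapRange_apply, Finsupp.mapRange_apply, map_smul, Finsupp.smul_apply, smul_eq_mul,
      map_mul, h4, crd_taG_push d hS 1 1 (v_one_whiskerRight P), h12,
      Algebra.TensorProduct.tmul_mul_tmul, _root_.mul_one, _root_.one_mul]
    rfl
  apply LinearMap.ext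
  intro x
  induction x using Vtot.ind with
  | h x =>
    change Vale.Agent.P093.N.Co.fco J ρ (Lam D.c (Θ := Θ₁.comp (HRing.map (kapH P))) d hS
      (theta_inlM D hv₀) (Vtot.mk D.c _ x)) =
        (Lam D.c (Θ := Θ₁.comp (HRing.map (kapH P))) d hS (theta_inlM D hv₀)).lTensor A
          (D.psi (P ⊗ Qs E d) (Vtot.mk D.c _ x))
    rw [D.psi_mk hS hP]
    have h3 := DFunLike.congr_fun key (MP.push E (Am.v P (0 : Fin 2)) (P ⊗ Qs E d) x)
    refine Eq.trans ?_ h3.symm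
    rw [G2_apply, ← sJ_mapRange]
    congr 1
    ext l : 1
    rw [Finsupp.mapRange_apply, Finsupp.mapRange_apply,
      crd_taG_push d hS 0 0 (v_zero_whiskerRight P), h02]
    rfl

end Vale.Agent.P093.N1
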