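import Vale.Agent.P093.N1.LamGr
import Vale.Agent.P093.N.PhiKer

/-!
# P093, part N1 (L), part 4: `P = R' = MU ⊗ S_(p)`

`h : IsMULoc D (toRp D p) p`, `c = pt h : Pt (stdEven T) (Rp D p) p 0`.

* `ThP h : π_*(R' ⊗ R') ⟶ 𝔽_p[b]`, `ThP_inlM`, `ThP_inrM`, `ThP_mul`, `ThP_basis`
* `LamU`, `LamU_bijective`, `mem_H_iff_LamU`, `cst_LamU`, `LamU_mulMap`
* `xiC h a : S^{2 |a|} ⟶ R'` : the monomial `x^a`
* `Phi_eq` : `Lam ∘ H (mulMap f ξ) ∘ Src = PhiC (Lam ∘ H f)`
-/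

open CategoryTheory MonoidalCategory MonObj Limits Pretriangulated

set_option linter.unusedSectionVars false

universe v u w

noncomputable section

namespace Vale.Agent.P093.N1

open Vale.Agent.P251.S Vale.Agent.P251.T Vale.Agent.P251.M Vale.Agent.P251.M.EvenSpheres
  Vale.Agent.P251.X Vale.Agent.P093.Nak Vale.Agent.P093.N.HH Vale.Agent.P251.F
  Vale.Agent.P251.I Vale.Agent.P093.N.PhiT Vale.Agent.P093.N.Phi Vale.Agent.P093.PLoc

variable {T : Type u} [Category.{v} T] [Preadditive T] [HasZeroObject T]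
    [HasShift T ℤ] [∀ n : ℤ, (shiftFunctor T n).Additive] [Pretriangulated T] [IsTriangulated T]
    [MonoidalCategory T] [SymmetricCategory T] [TensorTriangulated T] [MonoidalClosed T]
    [HasCoproducts.{0} T] [HasProducts.{0} T] [StableCat T]

section hS

variable (T) in
theorem hStd : ∀ n, IsSphere ((stdEven T).S n) := Vale.Agent.P251.M.isSphere_std

end hS

section ThP

variable {D : MUData T} {R' : T} [MonObj R'] [IsCommMonObj R'] {u : D.R ⟶ R'} [IsMonHom u]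
  {p : ℕ} [hpf : Fact p.Prime] (h : IsMULoc D u p)

/-- `π_*(R' ⊗ R') ⟶ 𝔽_p[b]` -/
def ThP : HRing (stdEven T) (R' ⊗ R') →+* EN.Bp p :=
  (thT h).comp (HRing.map (E := stdEven T) (kapH R'))

theorem ThP_apply (z : HRing (stdEven T) (R' ⊗ R')) :
    ThP h z = thT h (HRing.map (E := stdEven T) (kapH R') z) := rfl

theorem ThP_inlM (a : HRing (stdEven T) R') :
    ThP h (HRing.map (inlM R' R') a) = algebraMap (ZMod p) (EN.Bp p) ((pt h).χ a) := by
  rw [ThP_apply, CoDat.HRing_map_map (inlM R' R') (kapH R') (Am.v R' (0 : Fin 2)) (inlM_kapH R'),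
    thT_v₀]

theorem ThP_inrM (a : HRing (stdEven T) R') : ThP h (HRing.map (inrM R' R') a) = hurT h a := by
  rw [ThP_apply, CoDat.HRing_map_map (inrM R' R') (kapH R') (Am.v R' (1 : Fin 2)) (inrM_kapH R'),
    hurT_apply]

theorem ThP_mul (z : HRing (stdEven T) (R' ⊗ R')) :
    (pt h).χ (HRing.map μ[R'] z) = MvPolynomial.constantCoeff (ThP h z) := by
  rw [ThP_apply, constantCoeff_thT]
  congr 1
  exact (CoDat.HRing_map_map (kapH R') (Am.lift fun _ : Fin 2 => 𝟙 R') μ[R'] (kapH_lift R') z).symm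

theorem hC_eq_hur (a : Laz) : hC p a = EN.hur p a := hC_eq_toB p a

/-! ### The classes `x^a` -/

/-- the monomial `x^a` in the Lazard ring -/
def xm (a : EN.Mo p) : Laz := a.prod fun i e => Laz.x i.1 ^ e

theorem hur_xm (a : EN.Mo p) : EN.hur p (xm a) = EN.hm a := by
  unfold xm EN.hm Finsupp.prod
  rw [map_prod]
  refine Finset.prod_congr rfl fun i _ => ?_
  rw [map_pow]
  rfl

theorem isWt_xm (a : EN.Mo p) :
    Cob.IsWt (N := Laz) ((EN.dg p a : ℕ) : ℤ) (MvPolynomial.C (xm a) : Cob Laz 0) := by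
  have h1 : ((EN.dg p a : ℕ) : ℤ) = ∑ i ∈ a.support, ((a i : ℕ) : ℤ) * ((i.1 + 1 : ℕ) : ℤ) := by
    unfold EN.dg
    rw [Finsupp.weight_apply, Finsupp.sum]
    push_cast
    refine Finset.sum_congr rfl fun i _ => ?_
    rw [smul_eq_mul]
    push_cast
    ring
  have h2 : (MvPolynomial.C (xm a) : Cob Laz 0) =
      ∏ i ∈ a.support, (MvPolynomial.C (Laz.x i.1) : Cob Laz 0) ^ (a i) := by
    unfold xm Finsupp.prod
    rw [map_prod]
    exact Finset.prod_congr rfl fun i _ => map_pow _ _ _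
  rw [h1, h2]
  exact Cob.isWt_prod' _ _ _ fun i _ => (Laz.isWt_x i.1).pow (a i)

theorem exists_xiC (a : EN.Mo p) : ∃ x : (stdEven T).S ((EN.dg p a : ℕ) : ℤ) ⟶ R',
    evR D u (xm a) = HRing.of (stdEven T) R' _ x := evR_wt _ _ (isWt_xm a)

variable (D u p) in
/-- the class of the monomial `x^a` -/
def xiC (a : EN.Mo p) : (stdEven T).S ((EN.dg p a : ℕ) : ℤ) ⟶ R' :=
  (exists_xiC (D := D) (u := u) a).choose

theorem of_xiC (a : EN.Mo p) : HRing.of (stdEven T) R' _ (xiC D u p a) = evR D u (xm a) :=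
  (exists_xiC (D := D) (u := u) a).choose_spec.symm

/-- **The Hurewicz image of `x^a`.** -/
theorem ThP_xiC (a : EN.Mo p) :
    ThP h (HRing.map (inrM R' R') (HRing.of (stdEven T) R' _ (xiC D u p a))) = EN.hm a := by
  rw [ThP_inrM, of_xiC, hurT_evR, hC_eq_hur, hur_xm]

/-! ### `Lam` -/

variable {J : Type} (d : J → ℤ)

/-- **`H (R' ⊗ Q) ⟶ (J →₀ 𝔽_p[b])`** -/
def LamU : Vtot (pt h) (R' ⊗ Qs (stdEven T) d) →ₗ[ZMod p] (J →₀ EN.Bp p) :=
  Lam (pt h) d (hStd T) (ThP_inlM h)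

/-- (L3) -/
theorem cst_LamU (x : Vtot (pt h) (R' ⊗ Qs (stdEven T) d)) (j : J) :
    (hbasis (pt h) (RBasis.taut (E := stdEven T) (R := R') J d) (hStd T)).repr
      (cst (pt h) (Qs (stdEven T) d) x) j = MvPolynomial.constantCoeff (LamU h d x j) :=
  cst_eq (pt h) d (hStd T) (ThP_inlM h) MvPolynomial.constantCoeff (ThP_mul h) x j

/-- (L5) -/
theorem LamU_mulMap {X A : T} (f : X ⟶ R' ⊗ Qs (stdEven T) d) (ξ : A ⟶ R')
    (y : Vtot (pt h) X) (n : ℤ) (σ : (stdEven T).S n ⟶ A) :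
    LamU h d (Vtot.map (pt h) (mulMap f ξ) (Vtot.prod (pt h) X A y
      (Vtot.mk (pt h) A (sphC (stdEven T) R' n σ)))) =
      ThP h (HRing.map (inrM R' R') (HRing.of (stdEven T) R' n (σ ≫ ξ))) •
        LamU h d (Vtot.map (pt h) f y) := by
  unfold LamU
  rw [Lam_mulMap]
  ext j : 1
  rw [Finsupp.mapRange_apply, Finsupp.smul_apply, smul_eq_mul]

/-- the map `∐ S^{2 |a|} ⟶ R'` with components `x^a`, `|a| < c` -/
def xiM (D : MUData T) {R' : T} [MonObj R'] [IsCommMonObj R'] (u : D.R ⟶ R') [IsMonHom u]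
    (p : ℕ) [Fact p.Prime] (c : ℕ) :
    Qs (stdEven T) (fun a : EN.MoC p c => ((EN.dg p a.1 : ℕ) : ℤ)) ⟶ R' :=
  Sigma.desc fun a : EN.MoC p c => xiC D u p a.1

theorem ι_xiM (c : ℕ) (a : EN.MoC p c) :
    Sigma.ι (fun a : EN.MoC p c => (stdEven T).S ((EN.dg p a.1 : ℕ) : ℤ)) a ≫ xiM D u p c =
      xiC D u p a.1 := by
  unfold xiM
  rw [Sigma.ι_desc]

/-- **`Lam ∘ H (mulMap f ξ) ∘ Src = PhiC (Lam ∘ H f)`.** -/
theorem Phi_eq {X : T} {I : Type} (b : RBasis (stdEven T) R' X I)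
    (f : X ⟶ R' ⊗ Qs (stdEven T) d) (c : ℕ) (y : EN.MoC p c →₀ Vtot (pt h) X) :
    LamU h d (Vtot.map (pt h) (mulMap f (xiM D u p c))
      (Src (pt h) (fun a : EN.MoC p c => ((EN.dg p a.1 : ℕ) : ℤ)) b (hStd T) y)) =
      EN.PhiC c ((LamU h d).comp (Vtot.map (pt h) f)) y := by
  induction y using Finsupp.induction_linear with
  | zero => simp only [map_zero]
  | add x y hx hy => rw [map_add, map_add, map_add, map_add, hx, hy]
  | single a y =>
    rw [Src_single, EN.PhiC_single]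
    unfold tc
    rw [LamU_mulMap, ι_xiM, ThP_xiC]
    rfl

end ThP

/-! ### `R' = MU ⊗ S_(p)` -/

section Rp

variable {F : SpaceFunctor T} {e : F.S.obj CCF ≅ (stdEven T).L} {D : MUData T} (H : MUUniv e D)
  {p : ℕ} [hpf : Fact p.Prime] (h : IsMULoc D (toRp D p) p)

theorem thC_monomial (a : ℕ →₀ ℕ) :
    thC p (MvPolynomial.monomial (Cob.last 0 a) 1) = MvPolynomial.monomial a 1 := by
  rw [MvPolynomial.monomial_eq, MvPolynomial.monomial_eq, map_one, _root_.one_mul, map_one,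
    _root_.one_mul, Cob.last, Finsupp.prod_mapDomain_index_inj Cob.last_inj, Finsupp.prod,
    Finsupp.prod, map_prod]
  refine Finset.prod_congr rfl fun i _ => ?_
  rw [map_pow]
  congr 1
  exact thC_X p i

theorem amPush_two : amPush (toRp D p) 2 =
    ((amOne D.R ≫ toRp D p) ⊗ₘ toRp D p) ≫ kapH (Rp D p) := by
  rw [amPush_succ]
  have h1 : amPush (toRp D p) 1 = amOne D.R ≫ toRp D p ≫ Am.v (Rp D p) (0 : Fin 1) := by
    apply Am.hom_ext
    intro i
    rw [v_amPush, Subsingleton.elim i 0, ← Category.assoc, v_amOne, Category.id_comp]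
  rw [h1]
  unfold kapH
  rw [← tensorHom_id, tensorHom_comp_tensorHom, Category.comp_id, Category.assoc]

include H in
/-- **The basis `b^a` of `R' ⊗ R'`** and its image in `𝔽_p[b]`. -/
theorem exists_basis_Rp : ∃ b : RBasis (stdEven T) (Rp D p) (Rp D p) (ℕ →₀ ℕ),
    (∀ a, b.k a = Cob.degU a) ∧ b.FinType ∧
      ∀ a, ThP h (HRing.of (stdEven T) (Rp D p ⊗ Rp D p) (b.k a) (b.w a)) =
        MvPolynomial.monomial a 1 := by
  obtain ⟨b, hk, hf, hw⟩ := exists_rbasis_Rp p H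
  refine ⟨b, hk, hf, fun a => ?_⟩
  rw [hw, ThP_apply, CoDat.HRing_map_map _ (kapH (Rp D p)) (amPush (toRp D p) 2) amPush_two.symm]
  have h1 := thT_evP h (MvPolynomial.monomial (Cob.last 0 a) 1)
  rw [evP_apply] at h1
  rw [h1, thC_monomial]

variable {J : Type} (d : J → ℤ)

include H in
/-- (L1) -/
theorem LamU_bijective : Function.Bijective (LamU h d) := by
  obtain ⟨b, hk, -, hv⟩ := exists_basis_Rp H h
  exact Lam_bijective_Bp (pt h) d (hStd T) (ThP_inlM h) b hv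

include H in
/-- (L2) -/
theorem mem_H_iff_LamU {i : ℤ} {x : Vtot (pt h) (Rp D p ⊗ Qs (stdEven T) d)} :
    x ∈ Vtot.H (pt h) (i : ZMod 0) (Rp D p ⊗ Qs (stdEven T) d) ↔ LamU h d x ∈ EN.GrV d i := by
  obtain ⟨b, hk, -, hv⟩ := exists_basis_Rp H h
  exact mem_H_iff_Lam (pt h) d (hStd T) (ThP_inlM h) b hk hv

include H in
/-- the basis of `R' ⊗ Q` -/
theorem exists_basis_RpQ (hd : FT d) :
    ∃ b : RBasis (stdEven T) (Rp D p) (Rp D p ⊗ Qs (stdEven T) d) ((ℕ →₀ ℕ) × J),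
      b.FinType ∧ ∀ a j, b.k (a, j) = Cob.degU a + d j := by
  obtain ⟨b, hk, hf, -⟩ := exists_rbasis_Rp p H
  refine ⟨b.tensor (RBasis.taut J d), ?_, fun a j => ?_⟩
  · rw [finType_iff] at hf ⊢
    exact hf.prod hd
  · rw [tensor_k, hk]
    rfl

end Rp

end Vale.Agent.P093.N1
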