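import Vale.Agent.P093.N1.LamCo
import Vale.Agent.P093.N1.LamMU

/-!
# P093, part N1 (L4) for `P = MU ⊗ S_(p)`

* `colin_LamU`, `colin_LamUn` : `LamU h d` is colinear for the coaction of `P_*` and of the
  quotients `Pn p m`.
-/

open CategoryTheory MonoidalCategory MonObj Limits Pretriangulated TensorProduct

set_option linter.unusedSectionVars false

universe v u w

noncomputable section

namespace Vale.Agent.P093.N1

open Vale.Agent.P251.S Vale.Agent.P251.T Vale.Agent.P251.M Vale.Agent.P251.M.EvenSpheres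
  Vale.Agent.P251.X Vale.Agent.P093.Nak Vale.Agent.P093.N.HH Vale.Agent.P251.F
  Vale.Agent.P251.I Vale.Agent.P093.N.PhiT Vale.Agent.P093.N.Phi Vale.Agent.P093.PLoc
  Vale.Agent.P093.N

variable {T : Type u} [Category.{v} T] [Preadditive T] [HasZeroObject T]
    [HasShift T ℤ] [∀ n : ℤ, (shiftFunctor T n).Additive] [Pretriangulated T] [IsTriangulated T]
    [MonoidalCategory T] [SymmetricCategory T] [TensorTriangulated T] [MonoidalClosed T]
    [HasCoproducts.{0} T] [HasProducts.{0} T] [StableCat T]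

variable {D : MUData T} {R' : T} [MonObj R'] [IsCommMonObj R'] {u : D.R ⟶ R'} [IsMonHom u]
  {p : ℕ} [hpf : Fact p.Prime] (h : IsMULoc D u p) {J : Type} (d : J → ℤ)

/-- **(L4)** `LamU` is colinear. -/
theorem colin_LamU {P : Type} [CommRing P] [Bialgebra (ZMod p) P] (t : ℕ → P)
    (hε : ∀ n, Coalgebra.counit (R := ZMod p) (t n) = 0)
    (hΔ : ∀ n, Coalgebra.comul (R := ZMod p) (t n) = ∑ j ∈ Finset.range (n + 2),
      (ext1 t (n + 1 - j) ^ p ^ j) ⊗ₜ[ZMod p] ext1 t j)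
    (hG : Good (stdEven T) R' (R' ⊗ Qs (stdEven T) d)) :
    Co.Colin ((coDat h t hε hΔ).psi (R' ⊗ Qs (stdEven T) d))
      (Co.fco J (psiC p t).toLinearMap) (LamU h d) :=
  colin_Lam (coDat h t hε hΔ) (Θ₁ := thT h) (Θ₂ := th2T h t) d (hStd T) hG
    (psiC p t).toLinearMap (thT_v₀ h) (th2T_01 h t) (th2T_12 h t) (th2T_02 h t)

/-- (L4) for `Pn p m` -/
theorem colin_LamUn (m : ℕ) (hG : Good (stdEven T) R' (R' ⊗ Qs (stdEven T) d)) :
    Co.Colin ((coDatPn h m).psi (R' ⊗ Qs (stdEven T) d))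
      (Co.fco J (psiC p fun n => Pn.t p m (n + 1)).toLinearMap) (LamU h d) :=
  colin_LamU h d _ _ _ hG

/-- (L4) for `P_*` -/
theorem colin_LamUS (hG : Good (stdEven T) R' (R' ⊗ Qs (stdEven T) d)) :
    Co.Colin ((coDatPS h).psi (R' ⊗ Qs (stdEven T) d))
      (Co.fco J (psiC p fun n => PS.t p (n + 1)).toLinearMap) (LamU h d) :=
  colin_LamU h d _ _ _ hG

end Vale.Agent.P093.N1
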