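import Vale.Agent.P093.N1.Lam
import Vale.Agent.P093.N1.EBase
import Vale.Agent.P093.EN.Main

/-!
# P093, part N1 (L), part 3

* `kapH P : P ⊗ P ⟶ Am P 2`, `inlM_kapH`, `inrM_kapH`, `kapH_lift`
* `mem_H_iff_Lam` : (L2), `Lam` is graded
* `Src : (A →₀ H X) ≃ₗ H (X ⊗ ∐ S^{2 wt a})`
-/

open CategoryTheory MonoidalCategory MonObj Limits Pretriangulated

set_option linter.unusedSectionVars false

universe v u w

noncomputable section

namespace Vale.Agent.P093.N1

open Vale.Agent.P251.S Vale.Agent.P251.T Vale.Agent.P251.M Vale.Agent.P251.M.EvenSpheres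
  Vale.Agent.P251.X Vale.Agent.P093.Nak Vale.Agent.P093.N.HH Vale.Agent.P251.F

/-! ### `P ⊗ P` and `Am P 2` -/

section kap

variable {T : Type u} [Category.{v} T] [MonoidalCategory T] [SymmetricCategory T]

/-- the isomorphism `P ⊗ P ⟶ Am P 2` -/
def kapH (P : T) [MonObj P] : P ⊗ P ⟶ Am P 2 := Am.v P (0 : Fin 1) ▷ P

instance (P : T) [MonObj P] : IsMonHom (kapH P) :=
  inferInstanceAs (IsMonHom (Am.v P (0 : Fin 1) ▷ P))

@[reassoc]
theorem inlM_kapH (P : T) [MonObj P] : inlM P P ≫ kapH P = Am.v P (0 : Fin 2) := by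
  unfold kapH
  rw [inlM_whiskerRight]
  exact (Am.v_castSucc P (0 : Fin 1)).symm

@[reassoc]
theorem inrM_kapH (P : T) [MonObj P] : inrM P P ≫ kapH P = Am.v P (1 : Fin 2) := by
  unfold kapH
  rw [inrM_whiskerRight]
  exact (Am.v_last P 1).symm

@[reassoc]
theorem kapH_lift (P : T) [MonObj P] [IsCommMonObj P] :
    kapH P ≫ Am.lift (fun _ : Fin 2 => 𝟙 P) = μ[P] := by
  refine hom_ext_tensor ?_ ?_
  · rw [inlM_kapH_assoc, Am.v_lift, inlM, Category.assoc, MonObj.mul_one, Iso.inv_hom_id]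
  · rw [inrM_kapH_assoc, Am.v_lift, inrM, Category.assoc, MonObj.one_mul, Iso.inv_hom_id]

end kap

variable {T : Type u} [Category.{v} T] [Preadditive T] [HasZeroObject T]
    [HasShift T ℤ] [∀ n : ℤ, (shiftFunctor T n).Additive] [Pretriangulated T] [IsTriangulated T]
    [MonoidalCategory T] [SymmetricCategory T] [TensorTriangulated T] [MonoidalClosed T]
    [HasCoproducts.{0} T] [HasProducts.{0} T] [StableCat T] {E : EvenSpheres T}

/-! ### (L2) -/

section L2

theorem wt_eq_degU (a : ℕ →₀ ℕ) : (EN.wt a : ℤ) = Cob.degU a := by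
  unfold EN.wt Cob.degU
  rw [Finsupp.weight_apply, Finsupp.sum, Finsupp.sum]
  push_cast
  refine Finset.sum_congr rfl fun i _ => ?_
  rw [smul_eq_mul]
  push_cast
  ring

variable {P : T} [MonObj P] [IsCommMonObj P] {p : ℕ} [Fact p.Prime] (c : Pt E P p 0)
  {Θ : HRing E (P ⊗ P) →+* EN.Bp p} {J : Type} (d : J → ℤ) (hS : ∀ n, IsSphere (E.S n))
  (hΘ : ∀ a, Θ (HRing.map (inlM P P) a) = algebraMap (ZMod p) (EN.Bp p) (c.χ a))

/-- **(L2)** `Lam` is graded. -/
theorem mem_H_iff_Lam (bP : RBasis E P P (ℕ →₀ ℕ)) (hk : ∀ a, bP.k a = Cob.degU a)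
    (hv : ∀ a, Θ (HRing.of E (P ⊗ P) (bP.k a) (bP.w a)) = MvPolynomial.monomial a 1)
    {i : ℤ} {x : Vtot c (P ⊗ Qs E d)} :
    x ∈ Vtot.H c (i : ZMod 0) (P ⊗ Qs E d) ↔ Lam c d hS hΘ x ∈ EN.GrV d i := by
  rw [mem_H_iff (b := bP.tensor (RBasis.taut (E := E) (R := P) J d)) (hS := hS), EN.mem_GrV]
  have hv' : ∀ a, MvPolynomial.basisMonomials ℕ (ZMod p) a =
      Θ (HRing.of E (P ⊗ P) (bP.k a) (bP.w a)) := by
    intro a
    rw [hv, MvPolynomial.coe_basisMonomials]
  have h1 : ∀ (j : J) (a : ℕ →₀ ℕ), MvPolynomial.coeff a (Lam c d hS hΘ x j) =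
      (hbasis c (bP.tensor (RBasis.taut (E := E) (R := P) J d)) hS).repr x (a, j) := by
    intro j a
    rw [← repr_Lam c d hS hΘ bP _ hv' x a j]
    rfl
  constructor
  · intro h j a hne
    rw [h1] at hne
    have h2 := h (a, j) hne
    rw [tensor_k, hk] at h2
    rw [wt_eq_degU, add_comm]
    exact h2
  · rintro h ⟨a, j⟩ hne
    rw [← h1] at hne
    have h2 := h j a hne
    rw [tensor_k, hk]
    rw [wt_eq_degU, add_comm] at h2
    exact h2

/-- (L1) for `𝔽_p[b]` -/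
theorem Lam_bijective_Bp (bP : RBasis E P P (ℕ →₀ ℕ))
    (hv : ∀ a, Θ (HRing.of E (P ⊗ P) (bP.k a) (bP.w a)) = MvPolynomial.monomial a 1) :
    Function.Bijective (Lam c d hS hΘ) :=
  Lam_bijective c d hS hΘ bP (MvPolynomial.basisMonomials ℕ (ZMod p)) fun a => by
    rw [hv, MvPolynomial.coe_basisMonomials]

end L2

/-! ### `Src` -/

section Src

variable {P : T} [MonObj P] [IsCommMonObj P] {p N : ℕ} [Fact p.Prime] (c : Pt E P p N)
  {A : Type} (wa : A → ℤ) (X : T)

/-- `(A →₀ H X) ⟶ H (X ⊗ ∐ S^{2 wt a})` -/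
def SrcL : (A →₀ Vtot c X) →ₗ[ZMod p] Vtot c (X ⊗ Qs E wa) :=
  Finsupp.lsum (ZMod p) fun a => (Vtot.prod c X (Qs E wa)).flip (Vtot.mk c _ (tc E wa P a))

@[simp] theorem SrcL_single (a : A) (y : Vtot c X) :
    SrcL c wa X (Finsupp.single a y) =
      Vtot.prod c X (Qs E wa) y (Vtot.mk c _ (tc E wa P a)) := by
  unfold SrcL
  rw [Finsupp.lsum_single]
  rfl

variable {X} {J : Type} (b : RBasis E P X J) (hS : ∀ n, IsSphere (E.S n))

theorem SrcL_basis (j : J) (a : A) :
    SrcL c wa X (Finsupp.single a (hbasis c b hS j)) =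
      hbasis c (b.tensor (RBasis.taut (E := E) (R := P) A wa)) hS (j, a) := by
  rw [SrcL_single, hbasis_apply, hbasis_apply, of_tensor_w, ← Vtot.prod_mk]
  rfl

theorem SrcL_eq_equiv :
    SrcL c wa X = ((Finsupp.basis fun _ : A => hbasis c b hS).equiv
      (hbasis c (b.tensor (RBasis.taut (E := E) (R := P) A wa)) hS)
        ((Equiv.sigmaEquivProd A J).trans (Equiv.prodComm A J))).toLinearMap := by
  refine (Finsupp.basis fun _ : A => hbasis c b hS).ext fun aj => ?_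
  obtain ⟨a, j⟩ := aj
  rw [LinearEquiv.coe_coe, Module.Basis.equiv_apply, Finsupp.coe_basis, SrcL_basis]
  rfl

/-- `H (X ⊗ ∐ S^{2 wt a}) = (A →₀ H X)` -/
def Src : (A →₀ Vtot c X) ≃ₗ[ZMod p] Vtot c (X ⊗ Qs E wa) :=
  LinearEquiv.ofBijective (SrcL c wa X) (by
    rw [SrcL_eq_equiv c wa b hS]
    exact LinearEquiv.bijective _)

@[simp] theorem Src_apply (y : A →₀ Vtot c X) : Src c wa b hS y = SrcL c wa X y := rfl

theorem Src_single (a : A) (y : Vtot c X) :
    Src c wa b hS (Finsupp.single a y) =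
      Vtot.prod c X (Qs E wa) y (Vtot.mk c _ (tc E wa P a)) := SrcL_single c wa X a y

theorem repr_Src (y : A →₀ Vtot c X) (j : J) (a : A) :
    (hbasis c (b.tensor (RBasis.taut (E := E) (R := P) A wa)) hS).repr (Src c wa b hS y) (j, a) =
      (hbasis c b hS).repr (y a) j := by
  classical
  let B := hbasis c (b.tensor (RBasis.taut (E := E) (R := P) A wa)) hS
  let f : (A →₀ Vtot c X) →ₗ[ZMod p] ZMod p :=
    (Finsupp.lapply (j, a)).comp (B.repr.toLinearMap.comp (SrcL c wa X))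
  let g : (A →₀ Vtot c X) →ₗ[ZMod p] ZMod p :=
    (Finsupp.lapply j).comp ((hbasis c b hS).repr.toLinearMap.comp (Finsupp.lapply a))
  have h1 : f = g := by
    refine (Finsupp.basis fun _ : A => hbasis c b hS).ext fun aj => ?_
    obtain ⟨a', j'⟩ := aj
    rw [Finsupp.coe_basis]
    change B.repr (SrcL c wa X (Finsupp.single a' (hbasis c b hS j'))) (j, a) =
      (hbasis c b hS).repr ((Finsupp.single a' (hbasis c b hS j')) a) j
    rw [SrcL_basis]
    change B.repr (B (j', a')) (j, a) = _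
    rw [Module.Basis.repr_self, Finsupp.single_apply, Finsupp.single_apply]
    by_cases ha : a' = a
    · subst ha
      rw [if_pos rfl, Module.Basis.repr_self, Finsupp.single_apply]
      simp only [Prod.mk.injEq, and_true]
    · rw [if_neg ha, map_zero, if_neg (fun h => ha (congrArg Prod.snd h))]
      rfl
  exact DFunLike.congr_fun h1 y

end Src

section SrcGr

variable {P : T} [MonObj P] [IsCommMonObj P] {p : ℕ} [Fact p.Prime] (c : Pt E P p 0)
  {A : Type} (wa : A → ℤ) {X : T} {J : Type} (b : RBasis E P X J)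
  (hS : ∀ n, IsSphere (E.S n))

/-- `Src` is graded. -/
theorem mem_H_iff_Src {i : ℤ} {y : A →₀ Vtot c X} :
    Src c wa b hS y ∈ Vtot.H c (i : ZMod 0) (X ⊗ Qs E wa) ↔
      ∀ a, y a ∈ Vtot.H c ((i - wa a : ℤ) : ZMod 0) X := by
  rw [mem_H_iff (b := b.tensor (RBasis.taut (E := E) (R := P) A wa)) (hS := hS)]
  constructor
  · intro h a
    rw [mem_H_iff (b := b) (hS := hS)]
    intro j hne
    rw [← repr_Src c wa b hS y j a] at hne
    have h2 := h (j, a) hne
    rw [tensor_k] at h2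
    change b.k j + wa a = i at h2
    linarith
  · rintro h ⟨j, a⟩ hne
    rw [repr_Src] at hne
    have h2 := (mem_H_iff (b := b) (hS := hS)).1 (h a) j hne
    rw [tensor_k]
    change b.k j + wa a = i
    linarith

end SrcGr

end Vale.Agent.P093.N1
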