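import Vale.Agent.P093.N1.Mul
import Vale.Agent.P093.N1.F0
import Vale.Agent.P251.X.Push
import Vale.Agent.P251.X.CrossM
import Vale.Agent.P251.M.KBasis

/-!
# P093, part N1 (L), part 1: the transport `π_*(P ⊗ (P ⊗ Q)) = π_*((P ⊗ P) ⊗ Q)`

* `crossG_unit` : the product with the class of `σ : S ⟶ Y`
* `ta` : `MP E P (P ⊗ Q) →+ MP E (P ⊗ P) Q`, semilinear over the left unit `P ⟶ P ⊗ P`
* `ta_mulMap` : `ta` of the product with `ξ : A ⟶ P`
* `push_ta` : the action of `P` on `P ⊗ Q` is the multiplication `P ⊗ P ⟶ P`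
-/

open CategoryTheory MonoidalCategory MonObj Limits

set_option linter.unusedSectionVars false

universe v u

noncomputable section

namespace Vale.Agent.P093.N1

open Vale.Agent.P251.S Vale.Agent.P251.M Vale.Agent.P251.M.EvenSpheres Vale.Agent.P251.X
  Vale.Agent.P093.Nak

section core

variable {T : Type u} [Category.{v} T] [MonoidalCategory T] [SymmetricCategory T]
  {E : EvenSpheres T} {P : T} [MonObj P]

@[reassoc]
theorem unit_ten_r (X Y : T) :
    (P ⊗ X) ◁ FM.unit P Y ≫ FM.ten P X Y = (α_ P X Y).hom := by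
  have h1 : (P ⊗ X) ◁ (η[P] ▷ Y) ≫ tensorμ P X P Y =
      tensorμ P X (𝟙_ T) Y ≫ (P ◁ η[P]) ▷ (X ⊗ Y) := by
    have := tensorμ_natural_right P X η[P] (𝟙 Y)
    simpa using this
  simp only [FM.unit, MonoidalCategory.whiskerLeft_comp, Category.assoc, FM.ten]
  rw [reassoc_of% h1, ← comp_whiskerRight, MonObj.mul_one, tensorμ]
  simp only [braiding_tensorUnit_right, Category.assoc, comp_whiskerRight,
    MonoidalCategory.whiskerLeft_comp]
  monoidal

theorem un_eq_unit (R Y : T) [MonObj R] : un R Y = FM.unit R Y := rfl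

/-- the product with the class of `σ : S ⟶ Y` -/
theorem crossG_unit {X Y : T} {m n q : ℤ} (h : m + n = q) (a : E.S m ⟶ P ⊗ X) (σ : E.S n ⟶ Y) :
    crossG h a (σ ≫ un P Y) = E.ext h a σ ≫ (α_ P X Y).hom := by
  unfold crossG
  have h1 : E.ext h a (σ ≫ un P Y) = E.ext h a σ ≫ ((P ⊗ X) ◁ un P Y) := by
    have h2 := ext_comp (E := E) h a σ (𝟙 (P ⊗ X)) (un P Y)
    rw [Category.comp_id, id_tensorHom] at h2
    exact h2
  rw [h1, Category.assoc, un_eq_unit, unit_ten_r]

/-- the multiple of the class of `σ : S ⟶ Y` -/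
theorem gsmul_unit {B Y : T} [MonObj B] {m n q : ℤ} (h : m + n = q) (a : E.S m ⟶ B)
    (σ : E.S n ⟶ Y) : gsmul (ModStr.free B Y) h a (σ ≫ un B Y) = E.ext h a σ := by
  unfold gsmul
  have h1 : E.ext h a (σ ≫ un B Y) = E.ext h a σ ≫ (B ◁ un B Y) := by
    have h2 := ext_comp (E := E) h a σ (𝟙 B) (un B Y)
    rw [Category.comp_id, id_tensorHom] at h2
    exact h2
  have h3 : B ◁ un B Y ≫ (ModStr.free B Y).act = 𝟙 _ := FM.bind_unit Y
  rw [h1, Category.assoc, h3, Category.comp_id]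

/-- `ta` of a product with a spherical class -/
theorem crossG_unit_assoc_inv {Y : T} {m n q : ℤ} (h : m + n = q) (a : E.S m ⟶ P ⊗ P)
    (σ : E.S n ⟶ Y) : crossG h a (σ ≫ un P Y) ≫ (α_ P P Y).inv =
      gsmul (ModStr.free (P ⊗ P) Y) h a (σ ≫ un (P ⊗ P) Y) := by
  rw [crossG_unit, gsmul_unit, Category.assoc, Iso.hom_inv_id, Category.comp_id]

/-- the left unit and the action -/
theorem inlM_act (Q : T) : (inlM P P ⊗ₘ (α_ P P Q).inv) ≫ (ModStr.free (P ⊗ P) Q).act =
    (ModStr.free P (P ⊗ Q)).act ≫ (α_ P P Q).inv := by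
  have h1 : (inlM P P ▷ (P ⊗ P)) ≫ μ[P ⊗ P] = (α_ P P P).inv ≫ μ[P] ▷ P := by
    have h2 := inlM_tensor_mul (𝟙 (P ⊗ P))
    rw [tensorHom_id, FM.bind, MonoidalCategory.whiskerLeft_id, Category.id_comp] at h2
    exact h2
  change _ ≫ (α_ (P ⊗ P) (P ⊗ P) Q).inv ≫ (μ[P ⊗ P] ▷ Q) =
    ((α_ P P (P ⊗ Q)).inv ≫ (μ[P] ▷ (P ⊗ Q))) ≫ _
  have h3 : (inlM P P ⊗ₘ (α_ P P Q).inv) ≫ (α_ (P ⊗ P) (P ⊗ P) Q).inv ≫ (μ[P ⊗ P] ▷ Q) =
      P ◁ (α_ P P Q).inv ≫ (α_ P (P ⊗ P) Q).inv ≫ (((inlM P P ▷ (P ⊗ P)) ≫ μ[P ⊗ P]) ▷ Q) := by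
    rw [tensorHom_def', comp_whiskerRight]
    simp
  rw [h3, h1]
  simp only [comp_whiskerRight, Category.assoc]
  rw [associator_inv_naturality_left]
  monoidal

end core

section ta

variable {T : Type u} [Category.{v} T] [Preadditive T] [MonoidalCategory T]
  [MonoidalPreadditive T] [SymmetricCategory T] {E : EvenSpheres T} {P : T} [MonObj P]

/-- the transport `MP E P (P ⊗ Q) →+ MP E (P ⊗ P) Q` -/
def ta (E : EvenSpheres T) (P Q : T) [MonObj P] : MP E P (P ⊗ Q) →+ MP E (P ⊗ P) Q :=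
  MP.lift fun j =>
    { toFun := fun x => MP.of E (P ⊗ P) Q j (x ≫ (α_ P P Q).inv)
      map_zero' := by rw [zero_comp, map_zero]
      map_add' := fun x y => by rw [Preadditive.add_comp, map_add] }

@[simp] theorem ta_of (Q : T) (j : ℤ) (x : E.S j ⟶ P ⊗ (P ⊗ Q)) :
    ta E P Q (MP.of E P (P ⊗ Q) j x) = MP.of E (P ⊗ P) Q j (x ≫ (α_ P P Q).inv) :=
  MP.lift_of (W := P ⊗ Q) (B := MP E (P ⊗ P) Q) (fun j =>
    { toFun := fun x => MP.of E (P ⊗ P) Q j (x ≫ (α_ P P Q).inv)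
      map_zero' := by rw [zero_comp, map_zero]
      map_add' := fun x y => by rw [Preadditive.add_comp, map_add] }) j x

theorem gsmul_ta (Q : T) {i j k : ℤ} (h : i + j = k) (a : E.S i ⟶ P) (x : E.S j ⟶ P ⊗ (P ⊗ Q)) :
    gsmul (ModStr.free P (P ⊗ Q)) h a x ≫ (α_ P P Q).inv =
      gsmul (ModStr.free (P ⊗ P) Q) h (a ≫ inlM P P) (x ≫ (α_ P P Q).inv) := by
  unfold gsmul
  rw [ext_comp, Category.assoc, Category.assoc, inlM_act]

theorem ta_smul (Q : T) (a : HRing E P) (x : MP E P (P ⊗ Q)) :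
    ta E P Q (a • x) = HRing.map (inlM P P) a • ta E P Q x := by
  induction a using DirectSum.induction_on with
  | zero => rw [zero_smul, map_zero, map_zero, zero_smul]
  | of i a =>
    induction x using MP.ind with
    | zero => rw [smul_zero, map_zero, smul_zero]
    | of j x =>
      change ta E P Q (HRing.of E P i a • MP.of E P (P ⊗ Q) j x) =
        HRing.map (inlM P P) (HRing.of E P i a) • ta E P Q (MP.of E P (P ⊗ Q) j x)
      rw [MP.smul_of (k := i + j) rfl, ta_of, ta_of, HRing.map_of, MP.smul_of (k := i + j) rfl,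
        gsmul_ta]
    | add x y hx hy => rw [smul_add, map_add, map_add, hx, hy, smul_add]
  | add a b ha hb => rw [add_smul, map_add, ha, hb, map_add, add_smul]

/-- the class of `σ` -/
def sphC (E : EvenSpheres T) (B : T) [MonObj B] {Y : T} (n : ℤ) (σ : E.S n ⟶ Y) : MP E B Y :=
  MP.of E B Y n (σ ≫ un B Y)

theorem push_sphC {B B' : T} [MonObj B] [MonObj B'] (g : B ⟶ B') [IsMonHom g] {Y : T} (n : ℤ)
    (σ : E.S n ⟶ Y) : MP.push E g Y (sphC E B n σ) = sphC E B' n σ := by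
  unfold sphC
  rw [MP.push_of, Category.assoc]
  congr 2
  exact FM.unit_push g Y

theorem map_sphC {B : T} [MonObj B] {Y Z : T} (n : ℤ) (σ : E.S n ⟶ Y) (g : Y ⟶ Z) :
    MP.map E B g (sphC E B n σ) = sphC E B n (σ ≫ g) := by
  unfold sphC
  rw [MP.map_of, Category.assoc, Category.assoc]
  congr 2
  exact (FM.unit_naturality g).symm

theorem ta_cross (Q : T) (x : MP E P P) (n : ℤ) (σ : E.S n ⟶ Q) :
    ta E P Q (MP.cross E P P Q x (sphC E P n σ)) =
      (show HRing E (P ⊗ P) from x) • sphC E (P ⊗ P) n σ := by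
  induction x using MP.ind with
  | zero =>
    rw [map_zero, AddMonoidHom.zero_apply, map_zero]
    exact (zero_smul (HRing E (P ⊗ P)) (sphC E (P ⊗ P) n σ)).symm
  | of j x =>
    unfold sphC
    rw [MP.cross_of (q := j + n) rfl, ta_of, crossG_unit_assoc_inv]
    exact (MP.smul_of (E := E) (P := P ⊗ P) (k := j + n) rfl x (σ ≫ un (P ⊗ P) Q)).symm
  | add x y hx hy =>
    rw [map_add, AddMonoidHom.add_apply, map_add, hx, hy]
    exact (add_smul (show HRing E (P ⊗ P) from x) (show HRing E (P ⊗ P) from y)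
      (sphC E (P ⊗ P) n σ)).symm

/-- **The product with `ξ`.** -/
theorem ta_mulMap {X A Q : T} (f : X ⟶ P ⊗ Q) (ξ : A ⟶ P) (y : MP E P X) (n : ℤ)
    (σ : E.S n ⟶ A) : ta E P Q (MP.map E P (mulMap f ξ) (MP.cross E P X A y (sphC E P n σ))) =
      HRing.map (inrM P P) (HRing.of E P n (σ ≫ ξ)) • ta E P Q (MP.map E P f y) := by
  induction y using MP.ind with
  | zero => simp only [map_zero, AddMonoidHom.zero_apply, smul_zero]
  | of j y =>
    unfold sphC
    rw [MP.cross_of (q := j + n) rfl, crossG_unit, MP.map_of, ta_of, MP.map_of, ta_of,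
      HRing.map_of]
    have h1 := theta_mulMap (P := P) (R := P) f ξ (rfl : j + n = j + n) (Int.add_comm n j) y σ
    unfold theta at h1
    rw [Category.assoc] at h1
    rw [Category.assoc, Category.assoc, h1, Category.assoc, Category.assoc]
    exact (MP.smul_of (E := E) (P := P ⊗ P) (Int.add_comm n j) (σ ≫ ξ ≫ inrM P P)
      (y ≫ P ◁ f ≫ (α_ P P Q).inv)).symm
  | add x y hx hy => simp only [map_add, AddMonoidHom.add_apply, hx, hy, smul_add]

variable [IsCommMonObj P]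

/-- The action of `P` on `P ⊗ Q` in terms of the multiplication `P ⊗ P ⟶ P`. -/
theorem push_ta (Q : T) (x : MP E P (P ⊗ Q)) :
    MP.push E μ[P] Q (ta E P Q x) = MPL (ModStr.free P Q).act (act_isLinear P Q) x := by
  induction x using MP.ind with
  | zero => simp only [map_zero]
  | of j x =>
    rw [ta_of, MP.push_of, MPL_of, Category.assoc]
    rfl
  | add x y hx hy => simp only [map_add, hx, hy]

end ta

end Vale.Agent.P093.N1
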