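import Vale.Agent.P251.Q.QData
import Vale.Agent.P251.Q.Main

/-!
# P093, part N1: the power operations of a Thom theory at the prime 2

`ThomTheory.hasPowers_two` : `HasPowers` for `p = 2` (P251 has it for odd `p`).
For a class `x` of degree `0` we use `P x - x ^ 2 + P (x ^ 2)`, whose restriction to a point
is `x ^ 4 = 0`.
-/

open CategoryTheory MonoidalCategory OnePoint Topology
open Vale.Agent.P251 Vale.Agent.P251.G Vale.Agent.P251.G.LC Vale.Agent.P251.Q

universe v

namespace Vale.Agent.P093.N1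

open MultTheory

variable {C : Type} [CommRing C]

section

variable {E : MultTheory.{v}} {D : CoeffData E C} {p : ℕ} (L : LensData E D p)

theorem vspan_zero {Y : LC} [E.Good Y] [CompactSpace Y] (v : E.U Y) : (0 : E.U Y) ∈ D.vspan v :=
  zero_mem _

theorem ev_mul_vspan {Y : LC} [E.Good Y] [CompactSpace Y] (k : ℕ) (v : E.U Y)
    (f : PowerSeries C) (c : C) (l : ℕ) : D.ev k v f * (D.φ c • v ^ l) ∈ D.vspan v := by
  unfold CoeffData.ev
  rw [Finset.sum_mul]
  refine sum_mem fun m _ => ?_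
  refine AddSubgroup.subset_closure ⟨PowerSeries.coeff m f * c, m + l, ?_⟩
  rw [MultTheory.smul_mul', MultTheory.mul_smul_right, ← mul_smul, ← map_mul, ← pow_add]

/-- `posPoly` is stable under the multiplication by series in `v`. -/
theorem act_ev_mem_posPoly {Y : LC} [E.Good Y] [CompactSpace Y] {k : ℕ} {v : E.U Y} {X : LC}
    [E.Good X] {d : ℤ} (f : PowerSeries C) {z : E.U (Y ⊗ X)} (hz : z ∈ D.posPoly v X d) :
    E.act (fstC Y X) (D.ev k v f) z ∈ D.posPoly v X d := by
  refine AddSubgroup.closure_induction ?_ ?_ ?_ ?_ hz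
  · rintro z ⟨c, l, i, g, hi, hg, rfl⟩
    have h1 : E.act (fstC Y X) (D.ev k v f) (D.φ c • E.cross (v ^ l) g) =
        E.cross (D.ev k v f * (D.φ c • v ^ l)) g := by
      rw [← cross_smul_left]
      have := act_cross_left (ContinuousMap.id Y) (D.ev k v f) (D.φ c • v ^ l) g
      rw [← MultTheory.mul_def] at this
      exact this
    rw [h1]
    exact D.cross_mem_posPoly v (ev_mul_vspan k v f c l) hi hg
  · rw [map_zero]; exact zero_mem _
  · intro x y _ _ hx hy
    rw [map_add]; exact add_mem hx hy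
  · intro x _ hx
    rw [map_neg]; exact neg_mem hx

end

variable (E : ThomTheory.{v}) {D : CoeffData E.toMultTheory C}

/-- The power operations exist for `p = 2`. -/
theorem hasPowers_two (L : LensData E.toMultTheory D 2)
    (hGr : ∀ (m : ℕ) (I : Type) [Fintype I], E.toMultTheory.Good (LC.of (Gr m I)))
    (H : ∀ k, FrameData E.o L 1 k) : E.HasPowers L := by
  intro X hX h3 q x hx
  -- the power operation without condition at the point
  have key : ∀ x ∈ E.deg X (-(q : ℤ)), ∃ n : ℕ, ∀ k : ℕ,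
      ∃ P ∈ E.deg (L.B k ⊗ X) (-((2 : ℕ) * q : ℤ)),
        ptRes E.toMultTheory (L.b k) X P = ipow x 1 ∧
        E.act (fstC (L.B k) X) (D.ev k (L.v k) (wSeries D.F 2) ^ (n + q)) P -
          E.cross (D.ev k (L.v k) (wSeries D.F 2) ^ n) x ∈ D.posPoly (L.v k) X (-(q : ℤ)) := by
    intro x hx
    obtain ⟨N, m, hmN, hP⟩ := power_exists E hGr hx
    refine ⟨m, fun k => ?_⟩
    have hB := (H k).goodB
    obtain ⟨P, hPdeg, hPpt, T, hT, x', e, c, hx', he, hc, hkey⟩ :=
      hP (H k).F ((H k).good N) (H k).rank (H k).eq_sum (H k).pos (H k).s_eq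
        (fun m I _ => (H k).euler m I)
    refine ⟨P, hPdeg, hPpt (L.b k), ?_⟩
    have hN : m + q = N := hmN
    have h1 : E.act (fstC (L.B k) X) (D.ev k (L.v k) (wSeries D.F 2) ^ (m + q)) P -
        E.cross (D.ev k (L.v k) (wSeries D.F 2) ^ m) x = ∑ t, E.cross (c t) (x' t) := by
      rw [hN, sub_eq_iff_eq_add]
      exact hkey.trans (add_comm _ _)
    rw [h1]
    exact sum_mem fun t _ => D.cross_mem_posPoly (L.v k) (hc t) (he t) (hx' t)
  rcases Nat.eq_zero_or_pos q with rfl | hq
  · -- degree `0`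
    have hx0 : x ∈ E.deg X 0 := by simpa using hx
    have hz : x * x ∈ E.deg X (-((0 : ℕ) : ℤ)) := by simpa using mul_deg hx0 hx0
    obtain ⟨n₁, h₁⟩ := key x hx
    obtain ⟨n₂, h₂⟩ := key (x * x) hz
    refine ⟨n₁ + n₂, fun k => ?_⟩
    obtain ⟨P₁, hd₁, hp₁, hP₁⟩ := h₁ k
    obtain ⟨P₂, hd₂, hp₂, hP₂⟩ := h₂ k
    set w := D.ev k (L.v k) (wSeries D.F 2) with hw
    refine ⟨P₁ - pull E.toMultTheory (L.B k) X (x * x) + P₂, ?_, ?_, ?_⟩
    · have hpd : pull E.toMultTheory (L.B k) X (x * x) ∈ E.deg (L.B k ⊗ X) 0 := by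
        have := cross_deg (oneU_deg (L.B k)) (mul_deg hx0 hx0)
        rwa [zero_add, zero_add] at this
      have e0 : (-((2 : ℕ) * (0 : ℕ) : ℤ)) = 0 := by simp
      rw [e0] at hd₁ hd₂ ⊢
      exact add_mem (sub_mem hd₁ hpd) hd₂
    · intro _
      rw [map_add, map_sub, hp₁, hp₂, LensData.ptRes_pull]
      change x * x - x * x + x * x * (x * x) = 0
      rw [sub_self, zero_add]
      exact h3 _ _ _
    · -- products with powers of `w`
      have hwp : ∀ n : ℕ, w ^ n = D.ev k (L.v k) (wSeries D.F 2 ^ n) := fun n =>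
        (CoeffData.ev_pow (L.v_pow k) _ _).symm
      have hcr : ∀ (a b : E.U (L.B k)) (y : E.U X), E.act (fstC (L.B k) X) a (E.cross b y) =
          E.cross (a * b) y := by
        intro a b y
        have := act_cross_left (ContinuousMap.id (L.B k)) a b y
        rw [← MultTheory.mul_def] at this
        exact this
      have hac : ∀ (a b : E.U (L.B k)) (P : E.U (L.B k ⊗ X)),
          E.act (fstC (L.B k) X) a (E.act (fstC (L.B k) X) b P) =
            E.act (fstC (L.B k) X) (a * b) P := fun a b P => (MultTheory.act_mul _ _ _ _).symm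
      have e₁ := act_ev_mem_posPoly (k := k) (wSeries D.F 2 ^ n₂) hP₁
      have e₂ := act_ev_mem_posPoly (k := k) (wSeries D.F 2 ^ n₁) hP₂
      rw [← hwp, map_sub, hac, hcr, Nat.add_zero, ← pow_add] at e₁ e₂
      have e₃ : E.act (fstC (L.B k) X) (w ^ (n₁ + n₂)) (pull E.toMultTheory (L.B k) X (x * x)) =
          E.cross (w ^ (n₁ + n₂)) (x * x) := by
        unfold Vale.Agent.P251.Q.pull
        rw [hcr, ← one_def, mul_one]
      rw [Nat.add_zero, map_add, map_sub, e₃]
      rw [add_comm n₂ n₁] at e₁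
      have h := add_mem e₁ e₂
      refine (congrArg (· ∈ D.posPoly (L.v k) X (-((0 : ℕ) : ℤ))) ?_).mp h
      abel
  · obtain ⟨n, hn⟩ := key x hx
    refine ⟨n, fun k => ?_⟩
    obtain ⟨P, hd, _, hP⟩ := hn k
    exact ⟨P, hd, fun h => absurd h (by omega), hP⟩

end Vale.Agent.P093.N1
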