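import Vale.Agent.P093.N.Nak1

/-!
# P093, part N1 (T2): products with classes of the second factor

`P`, `R` commutative monoids, `f : X ⟶ R ⊗ Q`, `ξ : A ⟶ R`.

* `theta f : P ⊗ X ⟶ (P ⊗ R) ⊗ Q`
* `mulMap f ξ : X ⊗ A ⟶ R ⊗ Q`
* `theta_mulMap` : on homotopy `theta (mulMap f ξ)` is the product of `theta f` and of the image of
  `ξ` under the right unit `R ⟶ P ⊗ R`.
-/

open CategoryTheory MonoidalCategory MonObj Limits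

set_option linter.unusedSectionVars false

universe v u

noncomputable section

namespace Vale.Agent.P093.N1

open Vale.Agent.P251.S Vale.Agent.P251.M Vale.Agent.P251.M.EvenSpheres

variable {T : Type u} [Category.{v} T] [MonoidalCategory T] [SymmetricCategory T]

section core

variable (P R : T) [MonObj P] [MonObj R]

/-- the product with `1 ⊗ r` in `P ⊗ R` -/
lemma inrM_mul_tensor : (inrM P R ▷ (P ⊗ R)) ≫ μ[P ⊗ R] =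
    (α_ R P R).inv ≫ (β_ R P).hom ▷ R ≫ (α_ P R R).hom ≫ P ◁ μ[R] := by
  change ((λ_ R).inv ≫ (η[P] ▷ R)) ▷ (P ⊗ R) ≫ tensorμ P R P R ≫ (μ[P] ⊗ₘ μ[R]) = _
  have h1 : ((η[P] ▷ R) ▷ (P ⊗ R)) ≫ tensorμ P R P R =
      tensorμ (𝟙_ T) R P R ≫ ((η[P] ▷ P) ▷ (R ⊗ R)) := by
    have := tensorμ_natural_left (η[P]) (𝟙 R) P R
    simpa using this
  rw [comp_whiskerRight, Category.assoc, reassoc_of% h1]
  have h2 : ((η[P] ▷ P) ▷ (R ⊗ R)) ≫ (μ[P] ⊗ₘ μ[R]) = ((λ_ P).hom ▷ (R ⊗ R)) ≫ P ◁ μ[R] := by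
    rw [tensorHom_def, ← comp_whiskerRight_assoc, MonObj.one_mul]
  rw [h2, tensorμ]
  simp only [Category.assoc]
  monoidal

/-- the product with `1 ⊗ r` in `(P ⊗ R) ⊗ Q` -/
lemma braid_inrM_act (Q : T) : (α_ P R (R ⊗ Q)).inv ≫ (β_ P R).hom ▷ (R ⊗ Q) ≫
    (α_ R P (R ⊗ Q)).hom ≫ (inrM P R ⊗ₘ (α_ P R Q).inv) ≫ (ModStr.free (P ⊗ R) Q).act =
    P ◁ (ModStr.free R Q).act ≫ (α_ P R Q).inv := by
  change _ ≫ _ ≫ _ ≫ _ ≫ (α_ (P ⊗ R) (P ⊗ R) Q).inv ≫ (μ[P ⊗ R] ▷ Q) =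
    P ◁ ((α_ R R Q).inv ≫ (μ[R] ▷ Q)) ≫ _
  have h1 : (inrM P R ⊗ₘ (α_ P R Q).inv) ≫ (α_ (P ⊗ R) (P ⊗ R) Q).inv ≫ (μ[P ⊗ R] ▷ Q) =
      R ◁ (α_ P R Q).inv ≫ (α_ R (P ⊗ R) Q).inv ≫ (((inrM P R ▷ (P ⊗ R)) ≫ μ[P ⊗ R]) ▷ Q) := by
    rw [tensorHom_def', comp_whiskerRight]
    simp
  rw [h1, inrM_mul_tensor]
  simp only [comp_whiskerRight, whisker_assoc, whiskerLeft_comp, Category.assoc]
  have h2 : (β_ P R).hom ▷ (R ⊗ Q) ≫ (α_ R P (R ⊗ Q)).hom ≫ R ◁ (α_ P R Q).inv ≫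
      (α_ R (P ⊗ R) Q).inv ≫ (α_ R P R).inv ▷ Q ≫ ((β_ R P).hom ▷ R) ▷ Q =
      (α_ (P ⊗ R) R Q).inv := by
    have h3 : (α_ R P (R ⊗ Q)).hom ≫ R ◁ (α_ P R Q).inv ≫
      (α_ R (P ⊗ R) Q).inv ≫ (α_ R P R).inv ▷ Q = (α_ (R ⊗ P) R Q).inv := by monoidal
    rw [reassoc_of% h3, ← associator_inv_naturality_left, ← comp_whiskerRight_assoc,
      SymmetricCategory.symmetry, id_whiskerRight, Category.id_comp]
  rw [reassoc_of% h2]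
  monoidal

end core

variable {P R : T} [MonObj P] [MonObj R] {X A Q : T}

/-- `theta f : P ⊗ X ⟶ (P ⊗ R) ⊗ Q` -/
def theta (P : T) (f : X ⟶ R ⊗ Q) : P ⊗ X ⟶ (P ⊗ R) ⊗ Q := P ◁ f ≫ (α_ P R Q).inv

/-- The product `X ⊗ A ⟶ R ⊗ Q` of `f : X ⟶ R ⊗ Q` and `ξ : A ⟶ R`. -/
def mulMap (f : X ⟶ R ⊗ Q) (ξ : A ⟶ R) : X ⊗ A ⟶ R ⊗ Q :=
  (f ⊗ₘ ξ) ≫ (β_ (R ⊗ Q) R).hom ≫ (ModStr.free R Q).act

lemma mulMap_comp_left {Y : T} (g : Y ⟶ X) (f : X ⟶ R ⊗ Q) (ξ : A ⟶ R) :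
    (g ▷ A) ≫ mulMap f ξ = mulMap (g ≫ f) ξ := by
  unfold mulMap
  rw [← tensorHom_id, tensorHom_comp_tensorHom_assoc, Category.id_comp]

lemma mulMap_comp_right {B : T} (g : B ⟶ A) (f : X ⟶ R ⊗ Q) (ξ : A ⟶ R) :
    (X ◁ g) ≫ mulMap f ξ = mulMap f (g ≫ ξ) := by
  unfold mulMap
  rw [← id_tensorHom, tensorHom_comp_tensorHom_assoc, Category.id_comp]

/-- The effect of the product on `P ⊗ (X ⊗ A)`. -/
lemma whiskerLeft_mulMap (f : X ⟶ R ⊗ Q) (ξ : A ⟶ R) :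
    (α_ P X A).hom ≫ theta P (mulMap f ξ) =
      (β_ (P ⊗ X) A).hom ≫ ((ξ ≫ inrM P R) ⊗ₘ theta P f) ≫ (ModStr.free (P ⊗ R) Q).act := by
  have h1 : (β_ (P ⊗ X) A).hom ≫ ((ξ ≫ inrM P R) ⊗ₘ theta P f) =
      ((P ◁ f) ⊗ₘ ξ) ≫ (β_ (P ⊗ (R ⊗ Q)) R).hom ≫ (inrM P R ⊗ₘ (α_ P R Q).inv) := by
    unfold theta
    rw [BraidedCategory.braiding_naturality_assoc, tensorHom_comp_tensorHom]
  rw [reassoc_of% h1, BraidedCategory.braiding_tensor_left_hom]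
  simp only [Category.assoc]
  rw [braid_inrM_act]
  unfold theta mulMap
  simp only [whiskerLeft_comp, Category.assoc, tensorHom_def, whisker_assoc]
  simp

variable {E : EvenSpheres T}

/-- **T2.** On homotopy, the product with `ξ` is the multiplication by the image of `ξ` under the
right unit. -/
theorem theta_mulMap (f : X ⟶ R ⊗ Q) (ξ : A ⟶ R) {i a k : ℤ} (h : i + a = k) (h' : a + i = k)
    (y : E.S i ⟶ P ⊗ X) (σ : E.S a ⟶ A) :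
    (E.ext h y σ ≫ (α_ P X A).hom) ≫ theta P (mulMap f ξ) =
      gsmul (ModStr.free (P ⊗ R) Q) h' (σ ≫ ξ ≫ inrM P R) (y ≫ theta P f) := by
  unfold gsmul
  rw [ext_comp, ← ext_comm h h', Category.assoc, Category.assoc, Category.assoc,
    whiskerLeft_mulMap]

end Vale.Agent.P093.N1
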