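import Vale.Agent.P093.N.PhiKer
import Vale.Agent.P093.N.HBasis
import Vale.Agent.P093.N.HopfGr

/-!
# P093, part N1: the homomorphism `π_{2*}(R' ⊗ R') ⟶ Pn p m` is graded
-/

open CategoryTheory MonoidalCategory Limits Pretriangulated MonObj Preadditive TensorProduct

set_option linter.unusedSectionVars false

universe v u

noncomputable section

namespace Vale.Agent.P093.N1

open Vale.Agent.P251.I Vale.Agent.P251.T Vale.Agent.P251.F Vale.Agent.P251.S Vale.Agent.P251.M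
  Vale.Agent.P251.M.EvenSpheres Vale.Agent.P093.PLoc Vale.Agent.P093.N
  Vale.Agent.P093.N.Phi Vale.Agent.P093.N.HH Vale.Agent.P251.X Vale.Agent.P093.N.PhiT

/-- the grading of `Pn p m`, indexed by integers -/
def PgZ (p m : ℕ) [Fact p.Prime] (n : ℤ) : Submodule (ZMod p) (Pn p m) :=
  if 0 ≤ n then Pn.gr p m n.toNat else ⊥

theorem mem_PgZ {p m : ℕ} [Fact p.Prime] {n : ℤ} {a : Pn p m} (ha : a ∈ PgZ p m n) :
    a = 0 ∨ ∃ i : ℕ, (i : ℤ) = n ∧ a ∈ Pn.gr p m i := by
  unfold PgZ at ha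
  split_ifs at ha with h
  · exact Or.inr ⟨n.toNat, Int.toNat_of_nonneg h, ha⟩
  · exact Or.inl ((Submodule.mem_bot _).1 ha)

theorem mem_PgZ_of_zgr {p m : ℕ} [Fact p.Prime] {n : ℤ} {a : Pn p m}
    (ha : a ∈ zgr (Pn.gr p m) n) : a ∈ PgZ p m n := by
  unfold PgZ
  split_ifs with h
  · have h1 : (n.toNat : ℤ) = n := Int.toNat_of_nonneg h
    rw [← h1] at ha
    exact mem_zgr_natCast.1 ha
  · rw [mem_zgr_neg (by omega)] at ha
    rw [ha]
    exact Submodule.zero_mem _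

variable {T : Type u} [Category.{v} T] [Preadditive T] [HasZeroObject T]
    [HasShift T ℤ] [∀ n : ℤ, (shiftFunctor T n).Additive] [Pretriangulated T] [IsTriangulated T]
    [MonoidalCategory T] [SymmetricCategory T] [TensorTriangulated T] [MonoidalClosed T]
    [HasCoproducts.{0} T] [HasProducts.{0} T] [StableCat T]

theorem homog_coDatPn {D : MUData T} {p : ℕ} [Fact p.Prime] {R' : T} [MonObj R']
    [IsCommMonObj R'] {u : D.R ⟶ R'} [IsMonHom u] (h : IsMULoc D u p) (m : ℕ) :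
    Homog (coDatPn h m).φ (PgZ p m) := by
  intro n z
  refine mem_PgZ_of_zgr (phiT_mem h (fun n => Pn.t p m (n + 1)) (𝒜 := Pn.gr p m) (fun k => ?_) n z)
  exact Pn.mem_gr.2 ⟨PS.t p (k + 1), PS.t_mem_gr (k + 1), rfl⟩

end Vale.Agent.P093.N1
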