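import Vale.Agent.P093.N1.StepMU
import Vale.Agent.P093.N.PhiKer
import Vale.Agent.P093.N.HopfGr

/-!
# P093, part N1: `coDatPn` is graded

* `PnZ p m` : the grading of `Pn p m`, indexed by `ℤ`
* `homog_Pn` : `Homog (coDatPn h m).φ (PnZ p m)`
-/

open CategoryTheory MonoidalCategory MonObj Limits Pretriangulated TensorProduct

set_option linter.unusedSectionVars false

universe v u w

noncomputable section

namespace Vale.Agent.P093.N1

open Vale.Agent.P251.S Vale.Agent.P251.T Vale.Agent.P251.M Vale.Agent.P251.M.EvenSpheres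
  Vale.Agent.P251.X Vale.Agent.P093.Nak Vale.Agent.P093.N.HH Vale.Agent.P251.F
  Vale.Agent.P251.I Vale.Agent.P093.N.PhiT Vale.Agent.P093.N.Phi Vale.Agent.P093.PLoc
  Vale.Agent.P093.N

/-- The grading of `Pn p m`, indexed by `ℤ`. -/
def PnZ (p : ℕ) [Fact p.Prime] (m : ℕ) : ℤ → Submodule (ZMod p) (Pn p m)
  | Int.ofNat n => Pn.gr p m n
  | Int.negSucc _ => ⊥

theorem PnZ_cases (p : ℕ) [Fact p.Prime] (m : ℕ) (n : ℤ) (a : Pn p m) (ha : a ∈ PnZ p m n) :
    a = 0 ∨ ∃ i : ℕ, (i : ℤ) = n ∧ a ∈ Pn.gr p m i := by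
  rcases n with n | n
  · exact Or.inr ⟨n, rfl, ha⟩
  · exact Or.inl ha

theorem mem_PnZ_of_zgr {p : ℕ} [Fact p.Prime] {m : ℕ} {n : ℤ} {a : Pn p m}
    (ha : a ∈ zgr (Pn.gr p m) n) : a ∈ PnZ p m n := by
  rcases n with n | n
  · exact ha
  · exact ha

variable {T : Type u} [Category.{v} T] [Preadditive T] [HasZeroObject T]
    [HasShift T ℤ] [∀ n : ℤ, (shiftFunctor T n).Additive] [Pretriangulated T] [IsTriangulated T]
    [MonoidalCategory T] [SymmetricCategory T] [TensorTriangulated T] [MonoidalClosed T]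
    [HasCoproducts.{0} T] [HasProducts.{0} T] [StableCat T]

variable {D : MUData T} {R' : T} [MonObj R'] [IsCommMonObj R'] {u : D.R ⟶ R'} [IsMonHom u]
  {p : ℕ} [hpf : Fact p.Prime] (h : IsMULoc D u p)

/-- **`coDatPn` is graded.** -/
theorem homog_Pn (m : ℕ) : Homog (coDatPn h m).φ (PnZ p m) := fun n z =>
  mem_PnZ_of_zgr (phiT_mem h (fun n => Pn.t p m (n + 1)) (𝒜 := Pn.gr p m)
    (fun k => Pn.t_succ_mem_gr k) n z)

end Vale.Agent.P093.N1
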