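import Vale.Agent.P093.N.HPush
import Vale.Agent.P093.N.HPsi
import Vale.Agent.P093.N.Co.Int
import Vale.Agent.P093.N1.LamGr
import Vale.Agent.P093.N.Nak3

/-!
# P093, part N1: the step of the tower

`D : CoDat E P p A`, `H X = D.H X`, `Q = ∐ S^{2 d v}`.

* `LamP` : the description of `H (P ⊗ Q)`
* `Pack` : the algebraic input
* `core` : if `X` has a `P`-basis of finite type in degrees `≥ B` and `H X` is injective over `A`,
  there is `f : X ⊗ ∐ S^{2 wt a} ⟶ P ⊗ Q` such that `P ⊗ f` is split mono and the cofibre of `f`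
  has a `P`-basis of finite type in degrees `≥ B + c₀` and injective homology.
-/

open CategoryTheory MonoidalCategory MonObj Limits Pretriangulated
open scoped TensorProduct

set_option linter.unusedSectionVars false

universe v u w

noncomputable section

namespace Vale.Agent.P093.N1

open Vale.Agent.P251.S Vale.Agent.P251.T Vale.Agent.P251.M Vale.Agent.P251.M.EvenSpheres
  Vale.Agent.P251.X Vale.Agent.P093.Nak Vale.Agent.P093.N.HH Vale.Agent.P093.N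
  Vale.Agent.P093.EN

/-- **The algebraic input.** -/
def Pack (p : ℕ) [Fact p.Prime] {A : Type w} [CommRing A] [Bialgebra (ZMod p) A]
    (Pg : ℤ → Submodule (ZMod p) A) (β : Bp p →ₗ[ZMod p] A ⊗[ZMod p] Bp p) (c₀ : ℕ) : Prop :=
  ∀ (H : Type v) [AddCommGroup H] [Module (ZMod p) H] (Hr : ℤ → Submodule (ZMod p) H) (B : ℤ)
    (ρ : H →ₗ[ZMod p] A ⊗[ZMod p] H),
    DirectSum.IsInternal Hr → (∀ n, Module.Finite (ZMod p) (Hr n)) → (∀ n < B, Hr n = ⊥) →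
    Co.IsCoact ρ → (∀ n, ∀ y ∈ Hr n, ρ y ∈ tg Pg Hr n) → Co.Inj ρ →
    ∃ (V : Type) (d : V → ℤ) (π : H →ₗ[ZMod p] (V →₀ ZMod p)), (∀ j, B ≤ d j) ∧
      (∀ n, {j | d j = n}.Finite) ∧ (∀ n, ∀ y ∈ Hr n, ∀ j, π y j ≠ 0 → d j = n) ∧
      ∀ f₀ : H →ₗ[ZMod p] (V →₀ Bp p), Co.Colin ρ (Co.fco V β) f₀ →
        (∀ n, ∀ y ∈ Hr n, f₀ y ∈ GrV d n) →
        (∀ y j, MvPolynomial.constantCoeff (f₀ y j) = π y j) →
        Function.Injective (PhiC c₀ f₀) ∧
        (∀ n < B + c₀, ∀ x ∈ GrV d n, x ∈ LinearMap.range (PhiC c₀ f₀)) ∧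
        ∀ (Q : Type v) [AddCommGroup Q] [Module (ZMod p) Q] (ρQ : Q →ₗ[ZMod p] A ⊗[ZMod p] Q)
          (g : (V →₀ Bp p) →ₗ[ZMod p] Q), Co.IsCoact ρQ → Co.Colin (Co.fco V β) ρQ g →
          Function.Surjective g → LinearMap.ker g = LinearMap.range (PhiC c₀ f₀) → Co.Inj ρQ

variable {T : Type u} [Category.{v} T] [Preadditive T] [HasZeroObject T]
    [HasShift T ℤ] [∀ n : ℤ, (shiftFunctor T n).Additive] [Pretriangulated T] [IsTriangulated T]
    [MonoidalCategory T] [SymmetricCategory T] [TensorTriangulated T] [MonoidalClosed T]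
    [HasCoproducts.{0} T] [HasProducts.{0} T] [StableCat T] {E : EvenSpheres T}
    {P : T} [MonObj P] [IsCommMonObj P] {p : ℕ} [Fact p.Prime]
    {A : Type w} [CommRing A] [Bialgebra (ZMod p) A]

/-- The description of `H (P ⊗ ∐ S^{2 d v})`. -/
structure LamP (D : CoDat E P p A) (hS : ∀ n, IsSphere (E.S n)) (hu : HRing E P →+* Bp p)
    (β : Bp p →ₗ[ZMod p] A ⊗[ZMod p] Bp p) {V : Type} (d : V → ℤ) where
  /-- the isomorphism -/
  L : D.H (P ⊗ Qs E d) →ₗ[ZMod p] (V →₀ Bp p)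
  bij : Function.Bijective L
  mem_iff {m : ℤ} {x : D.H (P ⊗ Qs E d)} : x ∈ hgr D.c (P ⊗ Qs E d) m ↔ L x ∈ GrV d m
  cst (y : D.H (P ⊗ Qs E d)) (v : V) :
    (hbasis D.c (RBasis.taut (E := E) (R := P) V d) hS).repr (cst D.c (Qs E d) y) v =
      MvPolynomial.constantCoeff (L y v)
  colin : Co.Colin (D.psi (P ⊗ Qs E d)) (Co.fco V β) L
  mul {X Y : T} (f : X ⟶ P ⊗ Qs E d) (ξ : Y ⟶ P) (y : D.H X) (n : ℤ) (σ : E.S n ⟶ Y) :
    L (Vtot.map D.c (mulMap f ξ) (Vtot.prod D.c X Y y (Vtot.mk D.c Y (sphC E P n σ)))) =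
      hu (HRing.of E P n (σ ≫ ξ)) • L (Vtot.map D.c f y)

/-- the degrees of the monomials -/
abbrev wM (p c₀ : ℕ) [Fact p.Prime] : MoC p c₀ → ℤ := fun a => (dg p a.1 : ℤ)

theorem L_map_Src {D : CoDat E P p A} {hS : ∀ n, IsSphere (E.S n)} {hu : HRing E P →+* Bp p}
    {β : Bp p →ₗ[ZMod p] A ⊗[ZMod p] Bp p} {V : Type} {d : V → ℤ} (M : LamP D hS hu β d)
    {c₀ : ℕ} (x : ∀ a : MoC p c₀, E.S (wM p c₀ a) ⟶ P)
    (hx : ∀ a, hu (HRing.of E P _ (x a)) = hm a.1) {X : T} {J : Type} (b : RBasis E P X J)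
    (f₀ : X ⟶ P ⊗ Qs E d) (y : MoC p c₀ →₀ D.H X) :
    M.L (Vtot.map D.c (mulMap f₀ (Sigma.desc x)) (Src D.c (wM p c₀) b hS y)) =
      PhiC c₀ (M.L.comp (Vtot.map D.c f₀)) y := by
  induction y using Finsupp.induction_linear with
  | zero => simp only [map_zero]
  | add y y' hy hy' => simp only [map_add, hy, hy']
  | single a y =>
    rw [Src_single, PhiC_single]
    have h1 := M.mul f₀ (Sigma.desc x) y (wM p c₀ a) (Sigma.ι (fun a => E.S (wM p c₀ a)) a)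
    rw [Sigma.ι_desc, hx] at h1
    exact h1

theorem core (D : CoDat E P p A) (hS : ∀ n, IsSphere (E.S n)) (hc : LocalPt D.c)
    {hu : HRing E P →+* Bp p} {β : Bp p →ₗ[ZMod p] A ⊗[ZMod p] Bp p}
    (hL : ∀ (V : Type) (d : V → ℤ), Nonempty (LamP D hS hu β d))
    {Pg : ℤ → Submodule (ZMod p) A} (hPg : Homog D.φ Pg)
    {c₀ : ℕ} (hpack : Pack.{v} p Pg β c₀)
    (x : ∀ a : MoC p c₀, E.S (wM p c₀ a) ⟶ P) (hx : ∀ a, hu (HRing.of E P _ (x a)) = hm a.1)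
    {JP : Type} (bP : RBasis E P P JP) (hbP : bP.FinType)
    {X : T} {J : Type} (b : RBasis E P X J) (hb : b.FinType) {B : ℤ} (hB : ∀ j, B ≤ b.k j)
    (hI : Co.Inj (D.psi X)) :
    ∃ (V : Type) (d : V → ℤ) (f : X ⊗ Qs E (wM p c₀) ⟶ P ⊗ Qs E d),
      (∀ v, B ≤ d v) ∧ ∀ {C : T} {g : P ⊗ Qs E d ⟶ C} {δ : C ⟶ (X ⊗ Qs E (wM p c₀))⟦(1 : ℤ)⟧},
        Triangle.mk f g δ ∈ distTriang T →
        ∃ (K : Type) (b' : RBasis E P C K), b'.FinType ∧ (∀ k, B + c₀ ≤ b'.k k) ∧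
          Co.Inj (D.psi C) ∧ ∃ r, P ◁ f ≫ r = 𝟙 _ := by
  have hgX : Good E P X := ⟨J, ⟨b⟩⟩
  obtain ⟨V, d, π, hd, hfin, hπ, hf⟩ := hpack (D.H X) (hgr D.c X) B (D.psi X)
    (isInternal_hgr D.c b hS) (fun i => finite_hgr D.c b hS (hb.2 i))
    (fun i hi => hgr_eq_bot D.c b hS hB hi) (D.isCoact_psi hS hgX)
    (fun n y hy => D.psi_mem hS hgX hPg hy) hI
  obtain ⟨M⟩ := hL V d
  let BQ := hbasis D.c (RBasis.taut (E := E) (R := P) V d) hS
  obtain ⟨f₀, hf₀⟩ := exists_f0 b hS (BQ.repr.symm.toLinearMap.comp π) (by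
    intro i y hy
    rw [mem_H_iff (b := RBasis.taut (E := E) (R := P) V d) (hS := hS)]
    intro v hv
    have h1 : BQ.repr (BQ.repr.symm (π y)) v ≠ 0 := hv
    rw [LinearEquiv.apply_symm_apply] at h1
    exact hπ i y hy v h1)
  have hgPQ : Good E P (P ⊗ Qs E d) :=
    Good.tensor ⟨JP, ⟨bP⟩⟩ ⟨V, ⟨RBasis.taut (E := E) (R := P) V d⟩⟩
  have hgM : Good E P (Qs E (wM p c₀)) := ⟨_, ⟨RBasis.taut (E := E) (R := P) _ _⟩⟩
  obtain ⟨hinj, hsurj, hQ⟩ := hf (M.L.comp (Vtot.map D.c f₀))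
    (M.colin.comp (D.psi_map hS hgX hgPQ f₀))
    (fun n y hy => M.mem_iff.1 (map_mem_hgr f₀ hy)) (fun y v => by
      rw [LinearMap.comp_apply, ← M.cst, hf₀]
      change BQ.repr (BQ.repr.symm (π y)) v = _
      rw [LinearEquiv.apply_symm_apply])
  let f : X ⊗ Qs E (wM p c₀) ⟶ P ⊗ Qs E d := mulMap f₀ (Sigma.desc x)
  have key : ∀ y, M.L (Vtot.map D.c f (Src D.c (wM p c₀) b hS y)) =
      PhiC c₀ (M.L.comp (Vtot.map D.c f₀)) y := L_map_Src M x hx b f₀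
  have hrange : ∀ z : D.H (P ⊗ Qs E d), z ∈ LinearMap.range (Vtot.map D.c f) ↔
      M.L z ∈ LinearMap.range (PhiC c₀ (M.L.comp (Vtot.map D.c f₀))) := by
    intro z
    constructor
    · rintro ⟨y, rfl⟩
      refine ⟨(Src D.c (wM p c₀) b hS).symm y, ?_⟩
      rw [← key, LinearEquiv.apply_symm_apply]
    · rintro ⟨y, hy⟩
      refine ⟨Src D.c (wM p c₀) b hS y, M.bij.1 ?_⟩
      rw [key, hy]
  have hfinj : Function.Injective (Vtot.map D.c f) := by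
    intro y y' hyy
    have h1 : (Src D.c (wM p c₀) b hS).symm y = (Src D.c (wM p c₀) b hS).symm y' := by
      apply hinj
      rw [← key, ← key, LinearEquiv.apply_symm_apply, LinearEquiv.apply_symm_apply, hyy]
    exact (Src D.c (wM p c₀) b hS).symm.injective h1
  refine ⟨V, d, f, hd, ?_⟩
  intro C g δ hΔ
  have hbb : (bP.tensor (RBasis.taut (E := E) (R := P) V d)).FinType := by
    exact FT.prod hbP ⟨⟨B, hd⟩, hfin⟩
  obtain ⟨I', h', r, hF, hle, -, hr, -, hgs, hker⟩ := nakayama hS hc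
    (b.tensor (RBasis.taut (E := E) (R := P) _ (wM p c₀)))
    (bP.tensor (RBasis.taut (E := E) (R := P) V d)) hbb hΔ hfinj
  refine ⟨I', cofB _ _ h', hF, ?_, ?_, r, hr⟩
  · intro k
    refine hle (B + c₀) ?_ k
    intro n hn y
    rw [hrange]
    exact hsurj n hn _ (M.mem_iff.1 (mk_of_mem_hgr y))
  · have hgC : Good E P C := ⟨I', ⟨cofB _ _ h'⟩⟩
    let Le := LinearEquiv.ofBijective M.L M.bij
    have hLs : Co.Colin (Co.fco V β) (D.psi (P ⊗ Qs E d)) Le.symm.toLinearMap := by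
      have h1 : Le.symm.toLinearMap ∘ₗ M.L = LinearMap.id := by
        ext y
        exact Le.symm_apply_apply y
      have h2 := M.colin
      unfold Co.Colin at h2 ⊢
      refine (LinearMap.cancel_right M.bij.2).mp ?_
      rw [LinearMap.comp_assoc, h1, LinearMap.comp_id, LinearMap.comp_assoc, h2,
        ← LinearMap.comp_assoc, ← LinearMap.lTensor_comp, h1, LinearMap.lTensor_id,
        LinearMap.id_comp]
    refine hQ (D.H C) (D.psi C) ((Vtot.map D.c g).comp Le.symm.toLinearMap)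
      (D.isCoact_psi hS hgC) ((D.psi_map hS hgPQ hgC g).comp hLs)
      (hgs.comp Le.symm.surjective) ?_
    ext z
    rw [LinearMap.mem_ker, LinearMap.comp_apply]
    have h1 : Vtot.map D.c g (Le.symm z) = 0 ↔ Le.symm z ∈ LinearMap.range (Vtot.map D.c f) := by
      rw [← hker, LinearMap.mem_ker]
    refine h1.trans ((hrange _).trans ?_)
    have h2 : M.L (Le.symm z) = z := Le.apply_symm_apply z
    rw [h2]

end Vale.Agent.P093.N1
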