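import Vale.Agent.P093.N1.StepT
import Vale.Agent.P093.N1.LamCoP
import Vale.Agent.P093.N1.TowerIn

/-!
# P093, part N1: the step of the tower for `MU`

* `lamP_MU` : the description of `H (R' ⊗ Q)` for `R' = MU ⊗ S_(p)` and the quotients `Pn p m`
* `hstep_MU` : the step, for the class `TowObj`, from `Pack` and `Homog`
* `towerIn_MU` : Step 1.
-/

open CategoryTheory MonoidalCategory MonObj Limits Pretriangulated TensorProduct

set_option linter.unusedSectionVars false

universe v u w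

noncomputable section

namespace Vale.Agent.P093.N1

open Vale.Agent.P251.S Vale.Agent.P251.T Vale.Agent.P251.M Vale.Agent.P251.M.EvenSpheres
  Vale.Agent.P251.X Vale.Agent.P093.Nak Vale.Agent.P093.N.HH Vale.Agent.P251.F
  Vale.Agent.P251.I Vale.Agent.P093.N.PhiT Vale.Agent.P093.N.Phi Vale.Agent.P093.PLoc
  Vale.Agent.P093.N Vale.Agent.P093.N.Fin Vale.Agent.P093.N.TT Vale.Agent.P093.N.LR

variable {T : Type u} [Category.{v} T] [Preadditive T] [HasZeroObject T]
    [HasShift T ℤ] [∀ n : ℤ, (shiftFunctor T n).Additive] [Pretriangulated T] [IsTriangulated T]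
    [MonoidalCategory T] [SymmetricCategory T] [TensorTriangulated T] [MonoidalClosed T]
    [HasCoproducts.{0} T] [HasProducts.{0} T] [StableCat T]

variable {F : SpaceFunctor T} {e : F.S.obj CCF ≅ (stdEven T).L} {D : MUData T} (H : MUUniv e D)
  {p : ℕ} [hpf : Fact p.Prime] (h : IsMULoc D (toRp D p) p)

/-- the coaction of `Pn p m` on `𝔽_p[b]` -/
abbrev psiM (p : ℕ) [Fact p.Prime] (m : ℕ) : EN.Bp p →ₗ[ZMod p] Pn p m ⊗[ZMod p] EN.Bp p :=
  (psiC p fun n => Pn.t p m (n + 1)).toLinearMap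

include H in
theorem good_Rp : Good (stdEven T) (Rp D p) (Rp D p) := by
  obtain ⟨b, -, -, -⟩ := exists_rbasis_Rp p H
  exact ⟨_, ⟨b⟩⟩

include H in
/-- **The description of `H (R' ⊗ Q)`.** -/
theorem lamP_MU (m : ℕ) {V : Type} (d : V → ℤ) :
    Nonempty (LamP (coDatPn h m) (hStd T) (hurT h) (psiM p m) d) := by
  have hG : Good (stdEven T) (Rp D p) (Rp D p ⊗ Qs (stdEven T) d) :=
    Good.tensor (good_Rp H) ⟨V, ⟨RBasis.taut (E := stdEven T) (R := Rp D p) V d⟩⟩
  exact ⟨{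
    L := LamU h d
    bij := LamU_bijective H h d
    mem_iff := mem_H_iff_LamU H h d
    cst := fun y v => cst_LamU h d y v
    colin := colin_LamUn h d m hG
    mul := fun f ξ y n σ => by
      have h1 := LamU_mulMap h d f ξ y n σ
      rw [ThP_inrM] at h1
      exact h1 }⟩

include F H in
/-- **The step of the tower.** -/
theorem hstep_MU (m : ℕ) {Pg : ℤ → Submodule (ZMod p) (Pn p m)}
    (hPg : Homog (coDatPn h m).φ Pg) (hpack : Pack.{v} p Pg (psiM p m) ((p - 1) * p ^ m))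
    (B : ℤ) (X : T) (hX : TowObj h m B X) :
    HasStep (UTri.ofMon D.R) (TowObj h m (B + (((p - 1) * p ^ m : ℕ) : ℤ))) X := by
  obtain ⟨bP, -, hbP, -⟩ := exists_rbasis_Rp p H
  have h0 : 0 < (p - 1) * p ^ m := by
    have h2 := hpf.out.two_le
    exact Nat.mul_pos (by omega) (pow_pos (by omega) m)
  have h1 := hasStep F (coDatPn h m) (hu := hurT h) (β := psiM p m)
    (fun V d => lamP_MU H h m d) hPg h0 hpack (fun a => xiC D (toRp D p) p a.1)
    (fun a => by rw [of_xiC, hurT_evR, hC_eq_hur, hur_xm]) bP hbP (B := B) (X := X)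
    ⟨hX.loc, hX.conn, hX.basis, hX.inj⟩
  obtain ⟨Y, E₀, C, i, s, f, g, k, h1, h2, h3, h4, h5⟩ := h1
  exact ⟨Y, E₀, C, i, s, f, g, k, h1, h2, h3, h4, ⟨h5.loc, h5.conn, h5.basis, h5.inj⟩⟩

include F H in
/-- **Step 1.** -/
theorem towerIn_MU (hp : ∀ m : ℕ, ∃ Pg : ℤ → Submodule (ZMod p) (Pn p m),
    Homog (coDatPn h m).φ Pg ∧ Pack.{v} p Pg (psiM p m) ((p - 1) * p ^ m)) : TowerIn h :=
  towerIn_of fun m B X hX => by
    obtain ⟨Pg, h1, h2⟩ := hp m
    exact hstep_MU H h m h1 h2 B X hX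

end Vale.Agent.P093.N1
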