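import Vale.Agent.P093.N1.Step
import Vale.Agent.P093.N1.BridgeC
import Vale.Agent.P093.N1.LocPt
import Vale.Agent.P093.N.HurMU
import Vale.Agent.P093.N.VL3

/-!
# P093, part N1: vanishing lines

`M : MUData T`, `Rp M p = M.R ⊗ S_(p)`, `D : CoDat (stdEven T) (Rp M p) p A`.

* `Gd D B X` : `X` is `p`-local, bounded below, has an `Rp`-basis of finite type in degrees `≥ B`
  and `H X` is injective over `A`.
* `hasStep` : the step of the tower.
* `vlrc_of_gd` : objects with `Gd D B X` have a vanishing line of slope `2 c₀ - 1`, with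
  explicit constants.
-/

open CategoryTheory MonoidalCategory MonObj Limits Pretriangulated
open scoped TensorProduct

set_option linter.unusedSectionVars false

universe v u w

noncomputable section

namespace Vale.Agent.P093.N1

open Vale.Agent.P251.S Vale.Agent.P251.T Vale.Agent.P251.M Vale.Agent.P251.M.EvenSpheres
  Vale.Agent.P251.X Vale.Agent.P093.Nak Vale.Agent.P093.N.HH Vale.Agent.P093.N
  Vale.Agent.P093.EN Vale.Agent.P093.PLoc Vale.Agent.P093.N.TT Vale.Agent.P093.N.LR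
  Vale.Agent.P251.I Vale.Agent.P251.F

variable {T : Type u} [Category.{v} T] [Preadditive T] [HasZeroObject T]
    [HasShift T ℤ] [∀ n : ℤ, (shiftFunctor T n).Additive] [Pretriangulated T] [IsTriangulated T]
    [MonoidalCategory T] [SymmetricCategory T] [TensorTriangulated T] [MonoidalClosed T]
    [HasCoproducts.{0} T] [HasProducts.{0} T] [StableCat T]

section Retract

/-- the inclusion of the sphere of the monomial `1` -/
theorem exists_retract_wM (E : EvenSpheres T) (p c₀ : ℕ) [Fact p.Prime] (hc₀ : 0 < c₀) (X : T) :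
    ∃ (i : X ⟶ X ⊗ Qs E (wM p c₀)) (r : X ⊗ Qs E (wM p c₀) ⟶ X), i ≫ r = 𝟙 X := by
  let a₀ : MoC p c₀ := ⟨0, by rw [map_zero]; exact hc₀⟩
  have h0 : wM p c₀ a₀ = 0 := by
    change ((dg p (0 : Mo p) : ℕ) : ℤ) = 0
    rw [map_zero]
    rfl
  let e : 𝟙_ T ≅ E.S (wM p c₀ a₀) := E.zero ≪≫ eqToIso (by rw [h0])
  let io : E.S (wM p c₀ a₀) ⟶ Qs E (wM p c₀) := Sigma.ι (fun a => E.S (wM p c₀ a)) a₀
  refine ⟨(ρ_ X).inv ≫ X ◁ (e.hom ≫ io), X ◁ (retraction io ≫ e.inv) ≫ (ρ_ X).hom, ?_⟩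
  have h1 : (e.hom ≫ io) ≫ retraction io ≫ e.inv = 𝟙 _ := by simp
  rw [Category.assoc, ← MonoidalCategory.whiskerLeft_comp_assoc, h1,
    MonoidalCategory.whiskerLeft_id, Category.id_comp, Iso.inv_hom_id]

end Retract

variable {M : MUData T} {p : ℕ} [hp : Fact p.Prime] {A : Type w} [CommRing A]
  [Bialgebra (ZMod p) A]

/-- `X` is `p`-local, bounded below, has an `Rp`-basis of finite type in degrees `≥ B`, and
`H X` is injective. -/
structure Gd (D : CoDat (stdEven T) (Rp M p) p A) (B : ℤ) (X : T) : Prop where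
  loc : IsPLocal p X
  conn : ∃ m : ℤ, Conn m X
  basis : ∃ (J : Type) (b : RBasis (stdEven T) (Rp M p) X J), b.FinType ∧ ∀ j, B ≤ b.k j
  inj : Co.Inj (D.psi X)

theorem Gd.good {D : CoDat (stdEven T) (Rp M p) p A} {B : ℤ} {X : T} (h : Gd D B X) :
    Good (stdEven T) (Rp M p) X := by
  obtain ⟨J, b, -⟩ := h.basis
  exact ⟨J, ⟨b⟩⟩

theorem Gd.of_iso {D : CoDat (stdEven T) (Rp M p) p A} {B : ℤ} {X Y : T} (h : Gd D B X)
    (e : X ≅ Y) : Gd D B Y where
  loc := h.loc.of_iso e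
  conn := by
    obtain ⟨m, hm⟩ := h.conn
    exact ⟨m, hm.of_iso e⟩
  basis := by
    obtain ⟨J, b, hb, hB⟩ := h.basis
    exact ⟨J, b.ofIso e, hb, hB⟩
  inj := by
    have hb : Function.Bijective (Vtot.map D.c e.hom) := by
      constructor
      · intro x y hxy
        have h1 := congrArg (Vtot.map D.c e.inv) hxy
        rwa [← LinearMap.comp_apply, ← LinearMap.comp_apply, ← Vtot.map_comp, e.hom_inv_id,
          Vtot.map_id] at h1
      · intro y
        refine ⟨Vtot.map D.c e.inv y, ?_⟩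
        rw [← LinearMap.comp_apply, ← Vtot.map_comp, e.inv_hom_id, Vtot.map_id]
        rfl
    exact h.inj.of_bij' (D.psi_map Vale.Agent.P251.M.isSphere_std h.good (h.good.of_iso e) e.hom) hb

/-- the class of good objects, indexed by the connectivity -/
def GG (D : CoDat (stdEven T) (Rp M p) p A) (B' : ℤ) (X : T) : Prop :=
  ∃ B : ℤ, B' ≤ 2 * B ∧ Gd D B X

section Main

variable (F : SpaceFunctor T) (D : CoDat (stdEven T) (Rp M p) p A)
    {hu : HRing (stdEven T) (Rp M p) →+* Bp p} {β : Bp p →ₗ[ZMod p] A ⊗[ZMod p] Bp p}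
    (hL : ∀ (V : Type) (d : V → ℤ), Nonempty (LamP D Vale.Agent.P251.M.isSphere_std hu β d))
    {Pg : ℤ → Submodule (ZMod p) A} (hPg : Homog D.φ Pg)
    {c₀ : ℕ} (hc₀ : 0 < c₀) (hpack : Pack.{v} p Pg β c₀)
    (x : ∀ a : MoC p c₀, (stdEven T).S (wM p c₀ a) ⟶ Rp M p)
    (hx : ∀ a, hu (HRing.of (stdEven T) (Rp M p) _ (x a)) = hm a.1)
    {JP : Type} (bP : RBasis (stdEven T) (Rp M p) (Rp M p) JP) (hbP : bP.FinType)

include F hL hPg hc₀ hpack x hx bP hbP

/-- **The step.** -/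
theorem hasStep {B : ℤ} {X : T} (hX : Gd D B X) :
    HasStep (UTri.ofMon M.R) (Gd D (B + c₀)) X := by
  obtain ⟨J, b, hb, hB⟩ := hX.basis
  obtain ⟨V, d, f, hd, H⟩ := core D Vale.Agent.P251.M.isSphere_std (localPt_Rp F M D.c) hL hPg hpack x hx bP hbP b
    hb hB hX.inj
  obtain ⟨C, g, δ, hΔ⟩ := distinguished_cocone_triangle f
  obtain ⟨K, b', hb', hB', hI, r, hr⟩ := H hΔ
  obtain ⟨i, s, his⟩ := exists_retract_wM (stdEven T) p c₀ hc₀ X
  have hYloc : IsPLocal p (X ⊗ Qs (stdEven T) (wM p c₀)) := hX.loc.tensor_right _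
  refine ⟨_, _, C, i, s, f, g, δ, his, hΔ, ?_, ?_, ?_, ?_, ⟨K, b', hb', hB'⟩, hI⟩
  · have h1 : Mono (Rp M p ◁ f) := mono_of_mono_fac hr
    have h2 : IsIso (toRp M p ▷ ((X ⊗ Qs (stdEven T) (wM p c₀))⟦(1 : ℤ)⟧)) :=
      isIso_inl hp.out.ne_one M.R (hYloc.shift 1)
    have h3 : Mono (toRp M p ▷ ((X ⊗ Qs (stdEven T) (wM p c₀))⟦(1 : ℤ)⟧)) := inferInstance
    let φ : (UTri.ofMon M.R).E ⟶ Rp M p := toRp M p
    have h4 : Mono (φ ▷ ((X ⊗ Qs (stdEven T) (wM p c₀))⟦(1 : ℤ)⟧)) := h3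
    exact null_of_mono (U := UTri.ofMon M.R) (φ := φ) (IsMonHom.one_hom (toRp M p)) hΔ
  · exact inj_of_modStr (U := UTri.ofMon M.R) (φ := toRp M p) (IsMonHom.one_hom (toRp M p))
      (ModStr.free (Rp M p) _)
  · exact IsPLocal.ext₃ hΔ hYloc ((isPLocal_Rp p).tensor_right _)
  · obtain ⟨m, hm⟩ := hX.conn
    have h0 : Conn 0 (𝟙_ T) := M.conn_unit
    have h1 : Conn m (X ⊗ Qs (stdEven T) (wM p c₀)) := by
      have h2 := conn_tensor_bigCell hm (bigCell_wedge (T := T) (wM p c₀) (B := 0)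
        (fun a => Int.natCast_nonneg _))
      exact h2.mono (by omega)
    have h2 : Conn (2 * B) (Rp M p ⊗ Qs (stdEven T) d) := by
      have h3 := conn_tensor_bigCell (conn_Rp M p) (bigCell_wedge (T := T) d hd)
      exact h3.mono (by omega)
    refine ⟨min m (2 * B), ?_⟩
    exact Conn.ext₃ _ hΔ (h2.mono (min_le_right _ _)) (h1.mono (by omega))

theorem hasStep_GG {B' : ℤ} {X : T} (hX : GG D B' X) :
    HasStep (UTri.ofMon M.R) (GG D (B' + 2 * c₀)) X := by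
  obtain ⟨B, hB, hX⟩ := hX
  obtain ⟨Y, E₀, C, i, s, f, g, h, h1, h2, h3, h4, h5⟩ :=
    hasStep F D hL hPg hc₀ hpack x hx bP hbP hX
  exact ⟨Y, E₀, C, i, s, f, g, h, h1, h2, h3, h4, B + c₀, by linarith, h5⟩

/-- **Vanishing lines.** -/
theorem vlrc_of_gd {B : ℤ} {X : T} (hX : Gd D B X) :
    (UTri.ofMon M.R).VLrc DimLE (2 * c₀ - 1) 1 (-(2 * B)) X := by
  intro s n W hW hn g hg
  refine null_eq_zero (D := DimLE) (G := GG D) (d := 2 * c₀) (fun n W h => ?_) ?_ ?_ ?_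
    (B := 2 * B) ⟨B, le_rfl, hX⟩ s n W hW ?_ g (UTri.AF_one_iff.1 hg)
  · exact h.shift' 1 _ rfl
  · rintro B' X Y e ⟨B, hB, hX⟩
    exact ⟨B, hB, hX.of_iso e⟩
  · exact fun B' X hX => hasStep_GG F D hL hPg hc₀ hpack x hx bP hbP hX
  · rintro B' X ⟨B, hB, hX⟩ n W hW hn f
    obtain ⟨m, hm⟩ := hX.conn
    obtain ⟨K, b, hb, hB''⟩ := hX.basis
    exact eq_zero_of_rbasis_Rp M hp.out.ne_one hX.loc hm b hB'' (by linarith) hW f
  · have h1 : (0 : ℤ) ≤ 2 * c₀ - 1 := by omega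
    nlinarith

end Main

end Vale.Agent.P093.N1
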