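import Vale.Agent.P093.N.PhiInst
import Vale.Agent.P093.N.PhiGr
import Vale.Agent.P093.N1.EBase
import Vale.Agent.P251.M.BaseCh
import Vale.Agent.P251.S.AmitsurCup

/-!
# P093, part N1: the ring homomorphism `Θ : π_{2*}(R' ⊗ R') → 𝔽_p[b]`

`h : IsMULoc D u p`, `κ : R' ⊗ R' ⟶ Am R' 2` the isomorphism of monoids (`kapP`), `Θ = ThK h κ =
(thT h) ∘ κ_*`.

* `thT_evP`, `thC_monomial`, `constantCoeff_thC`, `constantCoeff_thT`
* `ThK_inl` (left unit), `ThK_ev` (values on `Cob Laz 1`), `ThK_basis` (the basis `b^a` goes to the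
  monomials), `chi_mul_eq` (`χ ∘ μ` = constant term), `ThK_of_mem` (homogeneity)
-/

open CategoryTheory MonoidalCategory MonObj Limits Pretriangulated TensorProduct

set_option linter.unusedSectionVars false

universe v u

noncomputable section

namespace Vale.Agent.P093.N1.ThT

open Vale.Agent.P251.S Vale.Agent.P251.T Vale.Agent.P251.M Vale.Agent.P251.M.EvenSpheres
  Vale.Agent.P251.X Vale.Agent.P093.Nak Vale.Agent.P251.I Vale.Agent.P251.F
  Vale.Agent.P093.PLoc Vale.Agent.P093.N0 Vale.Agent.P093.N.Phi Vale.Agent.P093.N.PhiT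
  Vale.Agent.P217 Vale.Agent.P093.N.HH

/-! ### Algebra -/

section alg

variable (p : ℕ) [hpf : Fact p.Prime]

theorem thC_X (m : ℕ) : thC p (MvPolynomial.X (Fin.last 0, m)) = MvPolynomial.X m := by
  rw [thC, Cob.ev_X]
  change (bser p).c (m + 1) = _
  rw [bser, c_succ_strictMk]

/-- The monomials. -/
theorem thC_monomial (a : ℕ →₀ ℕ) :
    thC p (MvPolynomial.monomial (Cob.last 0 a) 1) = MvPolynomial.monomial a 1 := by
  have h : (MvPolynomial.monomial (Cob.last 0 a) 1 : Cob Laz 1) =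
      a.prod fun m e => MvPolynomial.X (Fin.last 0, m) ^ e := by
    rw [MvPolynomial.monomial_eq, MvPolynomial.C_1, _root_.one_mul, Cob.last,
      Finsupp.prod_mapDomain_index_inj Cob.last_inj]
  rw [h, MvPolynomial.monomial_eq, MvPolynomial.C_1, _root_.one_mul, Finsupp.prod, Finsupp.prod,
    _root_.map_prod]
  refine Finset.prod_congr rfl fun m _ => ?_
  rw [_root_.map_pow, thC_X]

/-- The constant term. -/
theorem constantCoeff_thC (z : Cob Laz 1) :
    epsC p (Cob.map (fun _ : Fin 2 => (0 : Fin 1)) z) =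
      MvPolynomial.constantCoeff (thC p z) := by
  have h1 : (ch1 (bser p) (bser_mem p)).map MvPolynomial.constantCoeff =
      (ch0 (ZMod p)).res fun _ : Fin 2 => (0 : Fin 1) := by
    rw [ch1_map]
    have h2 : InvSeries.map MvPolynomial.constantCoeff (bser p) = 1 := by
      rw [bser, map_strictMk]
      have h3 : (fun m => MvPolynomial.constantCoeff (MvPolynomial.X m : Fb p)) =
          fun m => (1 : InvSeries (ZMod p)).c (m + 1) := by
        funext m
        rw [MvPolynomial.constantCoeff_X, InvSeries.c_one_succ]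
      rw [h3]
      exact strictMk_c (one_mem (strict (ZMod p)))
    refine chain_ext ?_ fun i => ?_
    · change _ = LawRing.act 1 _
      exact (LawRing.act_one _).symm
    · fin_cases i
      · change (1 : InvSeries (ZMod p)) = 1 * 1⁻¹
        group
      · change InvSeries.map MvPolynomial.constantCoeff (bser p) = 1 * 1⁻¹
        rw [h2]
        group
  rw [epsC, Cob.ev_map_res, ← h1, Cob.ev_map]
  rfl

/-- The monomial basis of `𝔽_p[b]`. -/
def bB : Module.Basis (ℕ →₀ ℕ) (ZMod p) (Fb p) := MvPolynomial.basisMonomials ℕ (ZMod p)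

@[simp] theorem bB_apply (a : ℕ →₀ ℕ) : bB p a = MvPolynomial.monomial a 1 :=
  congrFun (MvPolynomial.coe_basisMonomials ℕ (ZMod p)) a

@[simp] theorem bB_repr (x : Fb p) (a : ℕ →₀ ℕ) : (bB p).repr x a = MvPolynomial.coeff a x := rfl

/-- homogeneous elements -/
theorem mem_zgr_bgr {w : ℤ} {x : Fb p} : x ∈ zgr (bgr p) w ↔
    ∀ a, MvPolynomial.coeff a x ≠ 0 → Cob.degU a = w := by
  have hdeg : ∀ a : ℕ →₀ ℕ, ((Finsupp.weight (fun m : ℕ => m + 1) a : ℕ) : ℤ) = Cob.degU a := by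
    intro a
    unfold Cob.degU
    rw [Finsupp.weight_apply, Finsupp.sum, Finsupp.sum, Nat.cast_sum]
    refine Finset.sum_congr rfl fun m _ => ?_
    rw [smul_eq_mul]
    push_cast
    ring
  rcases lt_or_ge w 0 with hw | hw
  · rw [mem_zgr_neg hw]
    constructor
    · intro hx a ha
      rw [hx, MvPolynomial.coeff_zero] at ha
      exact absurd rfl ha
    · intro H
      ext a
      rw [MvPolynomial.coeff_zero]
      by_contra ha
      have h1 := H a ha
      have h2 := hdeg a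
      rw [h1] at h2
      omega
  · obtain ⟨n, rfl⟩ := Int.eq_ofNat_of_zero_le hw
    rw [show ((n : ℕ) : ℤ) = (n : ℤ) from rfl, mem_zgr_natCast]
    constructor
    · intro hx a ha
      have h1 : Finsupp.weight (fun m : ℕ => m + 1) a = n := hx ha
      rw [← hdeg, h1]
    · intro H a ha
      have h1 := H a ha
      rw [← hdeg] at h1
      exact Int.natCast_inj.1 h1

end alg

/-! ### `R ⊗ R ⟶ Am R 2` -/

section kap

variable {T : Type u} [Category.{v} T] [MonoidalCategory T] [SymmetricCategory T]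
  (R : T) [MonObj R] [IsCommMonObj R]

/-- `R ⊗ R ⟶ Am R 2` -/
def kapP : R ⊗ R ⟶ Am R 2 := (λ_ R).inv ▷ R

instance : IsIso (kapP R) := inferInstanceAs (IsIso ((λ_ R).inv ▷ R))

instance : IsMonHom (kapP R) := inferInstanceAs (IsMonHom ((λ_ R).inv ▷ R))

@[reassoc]
theorem amPair_kapP : amPair R ≫ kapP R = 𝟙 _ := by
  rw [amPair, kapP, ← comp_whiskerRight, Iso.hom_inv_id]
  exact id_whiskerRight _ _

@[reassoc]
theorem kapP_amPair : kapP R ≫ amPair R = 𝟙 _ := by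
  rw [amPair, kapP, ← comp_whiskerRight, Iso.inv_hom_id]
  exact id_whiskerRight _ _

theorem inlM_kapP : inlM R R ≫ kapP R = Am.v R (0 : Fin 2) := by
  rw [← v_zero_amPair, Category.assoc, amPair_kapP, Category.comp_id]

theorem inrM_kapP : inrM R R ≫ kapP R = Am.v R (1 : Fin 2) := by
  rw [← v_one_amPair, Category.assoc, amPair_kapP, Category.comp_id]

end kap

variable {T : Type u} [Category.{v} T] [Preadditive T] [HasZeroObject T]
    [HasShift T ℤ] [∀ n : ℤ, (shiftFunctor T n).Additive] [Pretriangulated T] [IsTriangulated T]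
    [MonoidalCategory T] [SymmetricCategory T] [TensorTriangulated T] [MonoidalClosed T]
    [HasCoproducts.{0} T] [HasProducts.{0} T] [StableCat T]

section thT

variable {D : MUData T} {R' : T} [MonObj R'] [IsCommMonObj R'] {u : D.R ⟶ R'} [IsMonHom u]
  {p : ℕ} [hpf : Fact p.Prime] (h : IsMULoc D u p)

theorem thT_evP (z : Cob Laz 1) : thT h (evP D u 1 z) = thC p z := extP_evP h _ _ z

/-- **The constant term.** -/
theorem constantCoeff_thT (z : HRing (stdEven T) (Am R' 2)) :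
    MvPolynomial.constantCoeff (thT h z) =
      (pt h).χ (HRing.map (E := stdEven T) (Am.lift fun _ : Fin 2 => 𝟙 R') z) := by
  have h1 := extP_map h (thC p) (natCast_zero p (Fb p)) (fun _ : Fin 2 => (0 : Fin 1)) (epsC p)
    (natCast_zero p (ZMod p)) MvPolynomial.constantCoeff (constantCoeff_thC p) z
  refine h1.symm.trans ?_
  rw [pt_χ, chi_apply]
  congr 1
  refine (CoDat.HRing_map_map _ _ _ ?_ z).symm
  apply Am.hom_ext
  intro i
  rw [Am.v_lift_assoc, Category.id_comp, Am.v_map]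

/-- **Homogeneity.** -/
theorem thT_of_mem (w : ℤ) (a : (stdEven T).S w ⟶ Am R' 2) :
    thT h (HRing.of (stdEven T) (Am R' 2) w a) ∈ zgr (bgr p) w :=
  extP_mem h (thC p) (natCast_zero p (Fb p)) (V := fun w => (zgr (bgr p) w : Set (Fb p)))
    (fun _ _ hz => thC_mem p hz) w a

theorem coeff_thT_of {w : ℤ} {a : (stdEven T).S w ⟶ Am R' 2} {m : ℕ →₀ ℕ}
    (hm : MvPolynomial.coeff m (thT h (HRing.of (stdEven T) (Am R' 2) w a)) ≠ 0) :
    Cob.degU m = w := (mem_zgr_bgr p).1 (thT_of_mem h w a) m hm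

variable (κ : R' ⊗ R' ⟶ Am R' 2) [IsMonHom κ]

/-- `Θ : π_{2*}(R' ⊗ R') → 𝔽_p[b]` -/
def ThK : HRing (stdEven T) (R' ⊗ R') →+* Fb p := (thT h).comp (HRing.map (E := stdEven T) κ)

theorem ThK_apply (z : HRing (stdEven T) (R' ⊗ R')) :
    ThK h κ z = thT h (HRing.map (E := stdEven T) κ z) := rfl

/-- the left unit -/
theorem ThK_inl (h0 : inlM R' R' ≫ κ = Am.v R' (0 : Fin 2)) (a : HRing (stdEven T) R') :
    ThK h κ (HRing.map (E := stdEven T) (inlM R' R') a) =
      algebraMap (ZMod p) (Fb p) ((pt h).χ a) := by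
  rw [ThK_apply, CoDat.HRing_map_map _ _ _ h0, thT_v₀]

theorem tensor_kap_eq (h0 : inlM R' R' ≫ κ = Am.v R' (0 : Fin 2))
    (h1 : inrM R' R' ≫ κ = Am.v R' (1 : Fin 2)) :
    (((amOne D.R ≫ u) ⊗ₘ u) ≫ κ : Am D.R 2 ⟶ Am R' 2) = amPush u 2 := by
  have hm : IsMonHom (((amOne D.R ≫ u) ⊗ₘ u) ≫ κ : Am D.R 2 ⟶ Am R' 2) := by
    change @IsMonHom _ _ _ (Am D.R 1 ⊗ D.R) _ _ _ (((amOne D.R ≫ u) ⊗ₘ u) ≫ κ)
    infer_instance
  refine Am.hom_ext (R := D.R) (n := 2) fun i => ?_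
  rw [v_amPush]
  fin_cases i
  · change Am.v D.R (Fin.castSucc (0 : Fin 1)) ≫ _ = _
    rw [Am.v_castSucc, Category.assoc]
    have e1 : inlM (Am D.R 1) D.R ≫ ((amOne D.R ≫ u) ⊗ₘ u) = (amOne D.R ≫ u) ≫ inlM R' R' := by
      rw [MonoidalCategory.tensorHom_def, inlM_whiskerRight_assoc, inlM_whiskerLeft]
    rw [reassoc_of% e1, h0]
    have e2 : Am.v D.R (0 : Fin 1) ≫ amOne D.R = 𝟙 D.R := v_amOne D.R
    rw [reassoc_of% e2]
    rfl
  · change Am.v D.R (Fin.last 1) ≫ _ = _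
    rw [Am.v_last]
    have e1 : inrM (Am D.R 1) D.R ≫ ((amOne D.R ≫ u) ⊗ₘ u) = u ≫ inrM R' R' := by
      rw [MonoidalCategory.tensorHom_def, inrM_whiskerRight_assoc, inrM_whiskerLeft]
    rw [reassoc_of% e1, h1]
    rfl

/-- the values on `Cob Laz 1` -/
theorem ThK_ev (h0 : inlM R' R' ≫ κ = Am.v R' (0 : Fin 2))
    (h1 : inrM R' R' ≫ κ = Am.v R' (1 : Fin 2)) (z : Cob Laz 1) :
    ThK h κ (HRing.map (E := stdEven T) ((amOne D.R ≫ u) ⊗ₘ u) (D.ev 1 z)) = thC p z := by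
  rw [ThK_apply, CoDat.HRing_map_map _ _ _ (tensor_kap_eq κ h0 h1), ← evP_apply, thT_evP]

theorem ThK_monomial (h0 : inlM R' R' ≫ κ = Am.v R' (0 : Fin 2))
    (h1 : inrM R' R' ≫ κ = Am.v R' (1 : Fin 2)) (a : ℕ →₀ ℕ) :
    ThK h κ (HRing.map (E := stdEven T) ((amOne D.R ≫ u) ⊗ₘ u)
      (D.ev 1 (MvPolynomial.monomial (Cob.last 0 a) 1))) = MvPolynomial.monomial a 1 := by
  rw [ThK_ev h κ h0 h1, thC_monomial]

/-- **The constant term** (the hypothesis `hev` of `cst_eq`). -/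
theorem chi_mul_eq (h0 : inlM R' R' ≫ κ = Am.v R' (0 : Fin 2))
    (h1 : inrM R' R' ≫ κ = Am.v R' (1 : Fin 2)) (z : HRing (stdEven T) (R' ⊗ R')) :
    (pt h).χ (HRing.map (E := stdEven T) μ[R'] z) = MvPolynomial.constantCoeff (ThK h κ z) := by
  rw [ThK_apply, constantCoeff_thT]
  refine congrArg (pt h).χ (CoDat.HRing_map_map _ _ _ ?_ z).symm
  apply hom_ext_tensor
  · rw [inlM_mul, reassoc_of% h0, Am.v_lift]
  · rw [inrM_mul, reassoc_of% h1, Am.v_lift]

/-- **Homogeneity.** -/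
theorem ThK_of_mem (w : ℤ) (a : (stdEven T).S w ⟶ R' ⊗ R') :
    ThK h κ (HRing.of (stdEven T) (R' ⊗ R') w a) ∈ zgr (bgr p) w := by
  rw [ThK_apply, HRing.map_of]
  exact thT_of_mem h w _

theorem coeff_ThK_of {w : ℤ} {a : (stdEven T).S w ⟶ R' ⊗ R'} {m : ℕ →₀ ℕ}
    (hm : MvPolynomial.coeff m (ThK h κ (HRing.of (stdEven T) (R' ⊗ R') w a)) ≠ 0) :
    Cob.degU m = w := (mem_zgr_bgr p).1 (ThK_of_mem h κ w a) m hm

/-- the standard choice of `κ` -/
abbrev ThP : HRing (stdEven T) (R' ⊗ R') →+* Fb p := ThK h (kapP R')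

end thT

section Rp

variable {F : SpaceFunctor T} {e : F.S.obj CCF ≅ (stdEven T).L} {D : MUData T} {p : ℕ}
  [hpf : Fact p.Prime]

/-- **The basis `b^a` goes to the monomials.** -/
theorem bB_eq (h : IsMULoc D (toRp D p) p)
    {b : RBasis (stdEven T) (Rp D p) (Rp D p) (ℕ →₀ ℕ)}
    (hw : ∀ a, HRing.of (stdEven T) (Rp D p ⊗ Rp D p) (b.k a) (b.w a) =
        HRing.map ((amOne D.R ≫ toRp D p) ⊗ₘ toRp D p)
          (D.ev 1 (MvPolynomial.monomial (Cob.last 0 a) 1)))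
    (κ : Rp D p ⊗ Rp D p ⟶ Am (Rp D p) 2) [IsMonHom κ]
    (h0 : inlM (Rp D p) (Rp D p) ≫ κ = Am.v (Rp D p) (0 : Fin 2))
    (h1 : inrM (Rp D p) (Rp D p) ≫ κ = Am.v (Rp D p) (1 : Fin 2)) (a : ℕ →₀ ℕ) :
    bB p a = ThK h κ (HRing.of (stdEven T) (Rp D p ⊗ Rp D p) (b.k a) (b.w a)) := by
  rw [hw a, ThK_monomial h κ h0 h1, bB_apply]

end Rp

end Vale.Agent.P093.N1.ThT
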